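import Crest.Agent.N334.AC.E.Defs

/-!
# Row 334, S0520, part E: uniform integrability gives absolute continuity (helper17)
-/

set_option autoImplicit false

open MeasureTheory Filter Topology Set
open scoped ENNReal

namespace Crest.Agent.N334.AC.E

open Crest.MathPhysics Crest.MathPhysics.Anderson Crest.Agent.N334.End

namespace ACd

lemma int_pk_ge {η r : ℝ} (hη : 0 < η) (h : η ≤ r) (l : ℝ) :
    1 ≤ ∫ a in l - r..l + r, pk η (l - a) := by
  rw [intervalIntegral.integral_eq_sub_of_hasDerivAt (f := fun a => -Real.arctan ((l - a) / η))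
    (fun a _ => ?_) ((cont_pk' hη l).intervalIntegrable _ _)]
  · have h1 := Real.arctan_strictMono.monotone ((one_le_div hη).2 h)
    rw [Real.arctan_one] at h1
    rw [show (l - (l + r)) / η = -(r / η) by ring, show (l - (l - r)) / η = r / η by ring,
      Real.arctan_neg]
    linarith [Real.pi_gt_three]
  · refine ((((hasDerivAt_id' a).const_sub l).div_const η).arctan).neg.congr_deriv ?_
    simp only [pk]; field_simp; ring

/-- the Poisson smoothing dominates `f - t` -/
lemma ker_ge {f : ℝ → ℝ} (hf : Continuous f) (h0 : ∀ t, 0 ≤ f t) {α β : ℝ}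
    (hs : Function.support f ⊆ Ioo α β) {t : ℝ} (ht : 0 < t) :
    ∃ r > (0 : ℝ), ∀ η, 0 < η → η ≤ r → ∀ l, f l - t ≤ ∫ a in α..β, f a * pk η (l - a) := by
  have hc : HasCompactSupport f := HasCompactSupport.intro (isCompact_Icc (a := α) (b := β))
    fun x hx => Function.notMem_support.1 fun h => hx (Ioo_subset_Icc_self (hs h))
  obtain ⟨ρ, hρ, hu⟩ := Metric.uniformContinuous_iff.1 (hc.uniformContinuous_of_continuous hf) t ht
  refine ⟨ρ / 2, half_pos hρ, fun η hη h l => ?_⟩
  have hk : Continuous fun a => f a * pk η (l - a) := hf.mul (cont_pk' hη l)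
  have hn : ∀ a, 0 ≤ f a * pk η (l - a) := fun a => mul_nonneg (h0 a) (pk_nonneg hη.le _)
  rw [intervalIntegral.integral_eq_integral_of_support_subset
    (((Function.support_mul_subset_left _ _).trans hs).trans Ioo_subset_Ioc_self)]
  rcases le_total (f l - t) 0 with e | e
  · exact e.trans (integral_nonneg hn)
  have hle : l - ρ / 2 ≤ l + ρ / 2 := by linarith
  calc f l - t ≤ (f l - t) * ∫ a in l - ρ / 2..l + ρ / 2, pk η (l - a) :=
        le_mul_of_one_le_right e (int_pk_ge hη h l)
    _ = ∫ a in l - ρ / 2..l + ρ / 2, (f l - t) * pk η (l - a) :=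
        (intervalIntegral.integral_const_mul _ _).symm
    _ ≤ ∫ a in l - ρ / 2..l + ρ / 2, f a * pk η (l - a) := by
        refine intervalIntegral.integral_mono_on hle
          ((continuous_const.mul (cont_pk' hη l)).intervalIntegrable _ _)
          (hk.intervalIntegrable _ _) fun a ha =>
          mul_le_mul_of_nonneg_right ?_ (pk_nonneg hη.le _)
        have := hu (a := l) (b := a) (by
          rw [Real.dist_eq, abs_lt]; constructor <;> linarith [ha.1, ha.2])
        rw [Real.dist_eq, abs_lt] at this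
        linarith [this.2]
    _ ≤ _ := by
        rw [intervalIntegral.integral_of_le hle]
        exact setIntegral_le_integral (hk.integrable_of_hasCompactSupport hc.mul_right)
          (Eventually.of_forall hn)

/-- the deterministic part -/
lemma qf_le {d : ℕ} {H : Ell2 d →L[ℂ] Ell2 d} (hH : IsSelfAdjoint H) {ψ : Ell2 d} (hψ : ‖ψ‖ = 1)
    {f : ℝ → ℝ} (hf : Continuous f) (h0 : ∀ t, 0 ≤ f t ∧ f t ≤ 1) {α β : ℝ} (hαβ : α ≤ β)
    (hs : Function.support f ⊆ Ioo α β) {t η K τ : ℝ} (hη : 0 < η) (hτ : 0 ≤ τ)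
    (hk : ∀ l, f l - t ≤ ∫ a in α..β, f a * pk η (l - a)) {u : ℝ → ℝ} (hu : Continuous u)
    (he : ∀ a, qf H ψ (fun l => pk η (l - a)) = u a)
    (hT : ∫⁻ a in Ioo α β, ENNReal.ofReal (u a - K) ≤ ENNReal.ofReal τ) :
    qf H ψ f ≤ t + K * (∫ a, f a) + τ := by
  have hk2 : Continuous (Function.uncurry fun a l => f a * pk η (l - a)) :=
    (hf.comp continuous_fst).mul (cont_pk2 hη)
  have h1 := qf_int hH ψ hk2 α β
  simp only [qf_mul _ _ (cont_pk hη _), he] at h1
  have h2 := qf_mono (H := H) ψ (f := fun l => f l + -t) (hf.add continuous_const)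
    (intervalIntegral.continuous_parametric_intervalIntegral_of_continuous'
      (f := fun l a => f a * pk η (l - a)) (hk2.comp continuous_swap) α β) fun l _ => hk l
  rw [← h1, qf_add _ hf continuous_const, qf_const hH, hψ] at h2
  have hm : Continuous fun a => max (u a - K) 0 := (hu.sub continuous_const).max continuous_const
  have h3 : ∫ a in α..β, f a * u a ≤ ∫ a in α..β, (K * f a + max (u a - K) 0) :=
    intervalIntegral.integral_mono_on hαβ ((hf.mul hu).intervalIntegrable _ _)
      (((continuous_const.mul hf).add hm).intervalIntegrable _ _) fun a _ => by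
        nlinarith [mul_le_mul_of_nonneg_left (le_max_left (u a - K) 0) (h0 a).1,
          mul_le_of_le_one_left (le_max_right (u a - K) 0) (h0 a).2]
  rw [intervalIntegral.integral_add (f := fun a => K * f a)
    ((continuous_const.mul hf).intervalIntegrable _ _)
    (hm.intervalIntegrable _ _), intervalIntegral.integral_const_mul,
    intervalIntegral.integral_eq_integral_of_support_subset (hs.trans Ioo_subset_Ioc_self)] at h3
  have h4 : ∫ a in α..β, max (u a - K) 0 ≤ τ := by
    rw [intervalIntegral.integral_of_le hαβ, integral_Ioc_eq_integral_Ioo,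
      integral_eq_lintegral_of_nonneg_ae (f := fun a => max (u a - K) 0)
        (Eventually.of_forall fun a => le_max_right _ _)
        hm.aestronglyMeasurable]
    refine ENNReal.toReal_le_of_le_ofReal hτ (le_of_eq_of_le ?_ hT)
    simp only [ENNReal.ofReal_max, ENNReal.ofReal_zero, zero_le, max_eq_left]
  linarith

lemma eta_pos (n : ℕ) : (0 : ℝ) < 1 / ((n : ℝ) + 1) := by positivity

lemma tendsto_eta : Tendsto (fun n : ℕ => 1 / ((n : ℝ) + 1)) atTop (𝓝[>] 0) :=
  tendsto_nhdsWithin_iff.2 ⟨tendsto_one_div_add_atTop_nhds_zero_nat,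
    Eventually.of_forall fun n => eta_pos n⟩

variable {d : ℕ} {σ : ℝ}

/-- the excess above the level `K` -/
noncomputable def TT (d : ℕ) (σ : ℝ) (x : Fin d → ℤ) (K : ℝ) (ω : (Fin d → ℤ) → unitInterval) :
    ℝ≥0∞ :=
  liminf (fun n : ℕ => ∫⁻ a in Win d,
    ENNReal.ofReal ((g (-1) σ a (1 / ((n : ℝ) + 1)) ω x x).im - K)) atTop

lemma meas_F (x : Fin d → ℤ) (K : ℝ) (n : ℕ) :
    Measurable fun p : ((Fin d → ℤ) → unitInterval) × ℝ =>
      ENNReal.ofReal ((g (-1) σ p.2 (1 / ((n : ℝ) + 1)) p.1 x x).im - K) :=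
  ((Complex.continuous_im.comp (cont_g (eta_pos n) x x)).sub
    continuous_const).measurable.ennreal_ofReal

lemma meas_TT (x : Fin d → ℤ) (K : ℝ) : Measurable (TT d σ x K) :=
  Measurable.liminf fun n => (meas_F x K n).lintegral_prod_right' (ν := volume.restrict (Win d))

lemma vol_Win : volume (Win d) ≤ 1 := by
  rw [Win, Real.volume_Ioo]
  exact ENNReal.ofReal_le_one.2 (by norm_num)

lemma lint_TT (hσ : 0 < σ) {x : Fin d → ℤ} (h : UI d σ x) {ε : ℝ} (hε : 0 < ε) :
    ∃ K, 0 ≤ K ∧ ∫⁻ ω, TT d σ x K ω ∂siteMeasure _ ≤ ENNReal.ofReal ε := by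
  obtain ⟨K, hK⟩ := h ε hε
  refine ⟨max K 0, le_max_right _ _, (lintegral_liminf_le fun n =>
    (meas_F x _ n).lintegral_prod_right' (ν := volume.restrict (Win d))).trans ?_⟩
  simp only [fun n : ℕ => lintegral_lintegral_swap (μ := siteMeasure (Fin d → ℤ))
    (ν := volume.restrict (Win d))
    (f := fun ω a => ENNReal.ofReal ((g (-1) σ a (1 / ((n : ℝ) + 1)) ω x x).im - max K 0))
    (meas_F x (max K 0) n).aemeasurable]
  refine le_trans liminf_le_limsup ((limsup_lintegral_le
    (fun _ => ENNReal.ofReal (Real.pi / (2 * σ)))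
    (fun n => (meas_F x _ n).lintegral_prod_left' (μ := siteMeasure (Fin d → ℤ)))
    (fun n => Eventually.of_forall fun a => le_trans (lintegral_mono fun ω =>
      ENNReal.ofReal_le_ofReal (sub_le_self _ (le_max_right _ _))) (wegner hσ (eta_pos n) x))
    ?_).trans ?_)
  · rw [setLIntegral_const]
    exact ENNReal.mul_ne_top ENNReal.ofReal_ne_top (ne_top_of_le_ne_top ENNReal.one_ne_top vol_Win)
  · refine (setLIntegral_mono' (g := fun _ => ENNReal.ofReal ε) measurableSet_Ioo
      fun a ha => limsup_le_of_le (h := ?_)).trans ?_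
    · filter_upwards [tendsto_eta.eventually (hK a ha)] with n hn
      exact le_trans (lintegral_mono fun ω =>
        ENNReal.ofReal_le_ofReal (sub_le_sub_left (le_max_left _ _) _)) hn
    · rw [setLIntegral_const]
      exact mul_le_of_le_one_right zero_le vol_Win

end ACd

open ACd in
theorem acd : ACdStmt := by
  intro d σ hσ x h
  choose K hK0 hK using fun m : ℕ => lint_TT hσ h (eta_pos m)
  have h4 : ∫⁻ ω, ⨅ m, TT d σ x (K m) ω ∂siteMeasure _ = 0 := by
    have := ENNReal.tendsto_ofReal (tendsto_one_div_add_atTop_nhds_zero_nat (𝕜 := ℝ))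
    rw [ENNReal.ofReal_zero] at this
    exact le_antisymm (ge_of_tendsto' this fun m =>
      (lintegral_mono fun ω => iInf_le _ m).trans (hK m)) zero_le
  filter_upwards [(lintegral_eq_zero_iff (Measurable.iInf fun m => meas_TT x (K m))).1 h4]
    with ω hω ε hε
  have h3 : 0 < ε / 3 := by positivity
  obtain ⟨m, hm⟩ := iInf_lt_iff.1 (hω.trans_lt (ENNReal.ofReal_pos.2 h3))
  have k0 := hK0 m
  refine ⟨ε / 3 / (K m + 1), by positivity, fun f hf h0 hs hi => ?_⟩
  obtain ⟨r, hr, hk⟩ := ker_ge hf (fun t => (h0 t).1) hs h3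
  obtain ⟨n, h1, h2⟩ := ((frequently_lt_of_liminf_lt (h := hm)).and_eventually
    ((tendsto_one_div_add_atTop_nhds_zero_nat (𝕜 := ℝ)).eventually (eventually_le_nhds hr))).exists
  have key := qf_le (H := End.Hm (-1) σ ω) Hm_sa (ψ := dl x) (by simp) hf h0 (by norm_num) hs
    (eta_pos n) h3.le (hk _ (eta_pos n) h2)
    (Complex.continuous_im.comp ((cont_g (eta_pos n) x x).comp (Continuous.prodMk_right ω)))
    (fun a => qf_dl (eta_pos n) x) h1.le
  have h5 : K m * ∫ a, f a ≤ ε / 3 := by
    refine (mul_le_mul_of_nonneg_left hi k0).trans ?_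
    rw [← mul_div_assoc, div_le_iff₀ (by positivity)]
    nlinarith
  linarith

end Crest.Agent.N334.AC.E
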