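import Crest.Agent.N334.AC.E.Defs

/-!
# Row 334, S0520, part E (helper20): matrix algebra for strictly dissipative systems
-/

set_option autoImplicit false

open MeasureTheory Finset Matrix Complex Function
open scoped ComplexConjugate

namespace Crest.Agent.N334.AC.E

section Abstract

variable {ι : Type} [Fintype ι] [DecidableEq ι] {A : Matrix ι ι ℂ} {w : ι → ℂ}

lemma Hm_mulVec (A : Matrix ι ι ℂ) (w u : ι → ℂ) (a : ι) :
    (Hm A w *ᵥ u) a = ∑ b, A a b * u b + w a * u a := by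
  rw [Hm, add_mulVec, Pi.add_apply, mulVec_diagonal]; rfl

/-- `Im ⟨u, (A + w) u⟩ = -∑ γ |u|²` -/
lemma im_form (hA : A.IsHermitian) (w u : ι → ℂ) :
    (star u ⬝ᵥ Hm A w *ᵥ u).im = -∑ a, gam w a * ‖u a‖ ^ 2 := by
  have hA0 : (star u ⬝ᵥ A *ᵥ u).im = 0 := by
    have h2 : star (star u ⬝ᵥ A *ᵥ u) = star u ⬝ᵥ A *ᵥ u := by
      rw [← star_dotProduct_star, star_star, star_mulVec, hA.eq, ← dotProduct_mulVec]
    exact Complex.conj_eq_iff_im.1 h2
  rw [Hm, add_mulVec, dotProduct_add, add_im, hA0, zero_add, dotProduct, im_sum,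
    ← sum_neg_distrib]
  refine sum_congr rfl fun a _ => ?_
  rw [mulVec_diagonal, Pi.star_apply, mul_left_comm, star_def, Complex.conj_mul']
  simp [gam, ← ofReal_pow]

lemma adm_pos (hs : A.IsSymm) (hh : A.IsHermitian) (hw : ∀ x, 0 < gam w x) : Adm A w := by
  refine ⟨hs, hh, fun x => (hw x).le, isUnit_iff_ne_zero.2 fun h0 => ?_⟩
  obtain ⟨u, hu, h1⟩ := Matrix.exists_mulVec_eq_zero_iff.2 h0
  have h2 := im_form hh w u
  rw [h1, dotProduct_zero, zero_im, eq_comm, neg_eq_zero,
    sum_eq_zero_iff_of_nonneg fun a _ => mul_nonneg (hw a).le (sq_nonneg _)] at h2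
  exact hu (funext fun a => by simpa [(hw a).ne'] using h2 a (mem_univ a))

lemma row_eq (h : Adm A w) (a b : ι) :
    ∑ c, A a c * Gm A w c b + w a * Gm A w a b = if a = b then 1 else 0 := by
  have h1 := congrFun (congrFun (mul_nonsing_inv _ h.inv) a) b
  rw [one_apply] at h1
  rw [← h1, ← Hm_mulVec A w (fun c => Gm A w c b) a]; rfl

lemma G_symm (hs : A.IsSymm) (w : ι → ℂ) (a b : ι) : Gm A w a b = Gm A w b a := by
  have : (Gm A w)ᵀ = Gm A w := by
    unfold Gm Hm
    rw [transpose_nonsing_inv, transpose_add, hs.eq, diagonal_transpose]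
  exact (congrFun (congrFun this b) a)

/-- Ward identity -/
lemma ward (h : Adm A w) (b : ι) : ∑ a, gam w a * ‖Gm A w a b‖ ^ 2 = (Gm A w b b).im := by
  have h1 := im_form h.herm w fun a => Gm A w a b
  have h2 : Hm A w *ᵥ (fun a => Gm A w a b) = Pi.single b 1 := funext fun a => by
    rw [Hm_mulVec, row_eq h, Pi.single_apply]
  rw [h2, dotProduct_single, mul_one, Pi.star_apply, star_def, conj_im, neg_inj] at h1
  exact h1.symm

lemma ward_sub (h : Adm A w) (S : Finset ι) (b : ι) :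
    ∑ a ∈ S, gam w a * ‖Gm A w a b‖ ^ 2 ≤ (Gm A w b b).im :=
  ward h b ▸ sum_le_sum_of_subset_of_nonneg (subset_univ S) fun a _ _ =>
    mul_nonneg (h.diss a) (sq_nonneg _)

lemma norm_diag_le (h : Adm A w) {b : ι} {κ : ℝ} (hκ : 0 < κ) (hb : κ ≤ gam w b) :
    ‖Gm A w b b‖ ≤ κ⁻¹ := by
  have h1 := ward_sub h {b} b
  rw [sum_singleton] at h1
  have h2 := (h1.trans (im_le_norm _))
  rcases (norm_nonneg (Gm A w b b)).eq_or_lt with h0 | h0
  · rw [← h0]; positivity
  · rw [← one_div, le_div_iff₀ hκ]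
    nlinarith [mul_le_mul_of_nonneg_right hb (sq_nonneg ‖Gm A w b b‖)]

/-- rank-one resolvent identity -/
lemma rank1 (h : Adm A w) {u : ι} {t : ℂ} (h' : Adm A (update w u t)) (a b : ι) :
    Gm A (update w u t) a b = Gm A w a b - (t - w u) * Gm A w a u * Gm A (update w u t) u b := by
  have h1 : Hm A (update w u t) = Hm A w + diagonal (Pi.single u (t - w u)) := by
    rw [Hm, Hm, add_assoc, diagonal_add]
    congr 2; funext y
    by_cases hy : y = u
    · subst hy; simp
    · simp [hy]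
  have h2 : Gm A w * (Hm A (update w u t) * Gm A (update w u t)) = Gm A w := by
    rw [Gm, Gm, mul_nonsing_inv _ h'.inv, Matrix.mul_one]
  rw [h1, Matrix.add_mul, Matrix.mul_add, ← Matrix.mul_assoc, Gm, nonsing_inv_mul _ h.inv,
    Matrix.one_mul, ← Matrix.mul_assoc] at h2
  have h3 := congrFun (congrFun h2 a) b
  rw [Matrix.add_apply, Matrix.mul_apply, sum_eq_single u (fun c _ hc => by simp [hc]) (by simp),
    mul_diagonal, Pi.single_eq_same] at h3
  simp only [Gm] at h3 ⊢
  linear_combination h3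

lemma rank1_col (h : Adm A w) {u : ι} {t : ℂ} (h' : Adm A (update w u t)) (b : ι) :
    Gm A (update w u t) u b * (1 + (t - w u) * Gm A w u u) = Gm A w u b := by
  linear_combination rank1 h h' u b

lemma rank1_ne (h : Adm A w) {u : ι} {t : ℂ} (h' : Adm A (update w u t)) :
    1 + (t - w u) * Gm A w u u ≠ 0 := by
  have h1 := rank1 h' (u := u) (t := w u) (by simpa using h) u u
  have h2 := rank1 h h' u u
  rw [update_idem, update_eq_self, update_self] at h1
  intro h0
  have h3 : Gm A w u u = 0 := by rw [← rank1_col h h' u, h0, mul_zero]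
  simp [h3] at h0

lemma rank1_mul (h : Adm A w) {u : ι} {t : ℂ} (h' : Adm A (update w u t)) (a b : ι) :
    Gm A (update w u t) a b * (1 + (t - w u) * Gm A w u u) = Gm A w a b +
      (t - w u) * (Gm A w u u * Gm A w a b - Gm A w a u * Gm A w u b) := by
  linear_combination (1 + (t - w u) * Gm A w u u) * rank1 h h' a b -
    (t - w u) * Gm A w a u * rank1_col h h' b

omit [Fintype ι] in
lemma gam_update (w : ι → ℂ) (u : ι) (t : ℂ) (a : ι) :
    gam (update w u t) a = if a = u then -t.im else gam w a := by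
  by_cases h : a = u
  · subst h; simp [gam]
  · simp [gam, h]

omit [Fintype ι] in
lemma gam_update_pos (hw : ∀ x, 0 < gam w x) (u : ι) {t : ℂ} (ht : t.im < 0) (a : ι) :
    0 < gam (update w u t) a := by
  rw [gam_update]; split_ifs
  · linarith
  · exact hw a

/-- `Im G(x,x) ≤ 1 / cnd` -/
lemma im_mul_cnd_le (hs : A.IsSymm) (hh : A.IsHermitian) (hw : ∀ x, 0 < gam w x) (S : Finset ι)
    (x : ι) : (Gm A w x x).im * cnd A w S x ≤ 1 := by
  have h := adm_pos hs hh hw
  have h' := adm_pos hs hh (gam_update_pos hw x (t := -I) (by simp))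
  have h1 := ward_sub h S x
  have h2 := norm_diag_le h' (b := x) one_pos (by simp [gam_update])
  have h3 := rank1_col h h' x
  have h4 : cnd A w S x * ‖Gm A w x x‖ ^ 2 =
      ‖Gm A (update w x (-I)) x x‖ ^ 2 * ∑ a ∈ S, gam w a * ‖Gm A w a x‖ ^ 2 := by
    rw [cnd, sum_mul, mul_sum]
    refine sum_congr rfl fun a _ => ?_
    rw [G_symm hs w a x, ← rank1_col h h' a, G_symm hs _ a x]
    conv_lhs => rw [← h3]
    simp only [norm_mul]; ring
  have h5 : (Gm A w x x).im ^ 2 ≤ ‖Gm A w x x‖ ^ 2 := by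
    rw [← sq_abs]; exact pow_le_pow_left₀ (abs_nonneg _) (abs_im_le_norm _) 2
  have h6 : 0 ≤ cnd A w S x := sum_nonneg fun a _ => mul_nonneg (hw a).le (sq_nonneg _)
  have h7 : 0 ≤ ∑ a ∈ S, gam w a * ‖Gm A w a x‖ ^ 2 :=
    sum_nonneg fun a _ => mul_nonneg (hw a).le (sq_nonneg _)
  have h8 : cnd A w S x * ‖Gm A w x x‖ ^ 2 ≤ (Gm A w x x).im := by
    rw [h4]
    refine (mul_le_of_le_one_left h7 ?_).trans h1
    exact pow_le_one₀ (norm_nonneg _) (by simpa using h2)
  rcases (h7.trans h1).eq_or_lt with h0 | h0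
  · rw [← h0]; simp
  · nlinarith [mul_le_mul_of_nonneg_left h5 h6]

/-- two adjacent open sites surrounded by strong absorbers -/
lemma base (h : Adm A w) {c : ℝ} (hc : ∀ a, ∑ b, ‖A a b‖ ≤ c) {x y : ι} (hxy : x ≠ y)
    (hA : 1 ≤ ‖A y x‖) (hx : w x = -I) (hy : w y = -I)
    (hN : ∀ u, u ≠ x → u ≠ y → (A x u ≠ 0 ∨ A y u ≠ 0) → 4 * (c + 1) ^ 4 ≤ gam w u) :
    (4 * (c + 1) ^ 2)⁻¹ ≤ ‖Gm A w y x‖ := by
  have hc0 : 0 ≤ c := (sum_nonneg fun _ _ => norm_nonneg _).trans (hc x)
  have h1 : ‖Gm A w x x‖ ≤ 1 := by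
    simpa using norm_diag_le h (b := x) one_pos (by simp [gam, hx])
  have h2 : ∀ u, u ≠ x → u ≠ y → (A x u ≠ 0 ∨ A y u ≠ 0) →
      ‖Gm A w u x‖ ≤ (2 * (c + 1) ^ 2)⁻¹ := fun u hux huy hu => by
    have h3 := ward_sub h {u} x
    rw [sum_singleton] at h3
    have h4 := (mul_le_mul_of_nonneg_right (hN u hux huy hu) (sq_nonneg _)).trans
      (h3.trans ((im_le_norm _).trans h1))
    rw [← one_div, le_div_iff₀ (by positivity)]
    refine le_of_sq_le_sq ?_ zero_le_one
    nlinarith
  have h3 : ∀ a, (a = x ∨ a = y) → ‖∑ u ∈ (univ.erase x).erase y, A a u * Gm A w u x‖ ≤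
      c * (2 * (c + 1) ^ 2)⁻¹ := fun a ha => by
    refine (norm_sum_le _ _).trans ((sum_le_sum (g := fun u => ‖A a u‖ * (2 * (c + 1) ^ 2)⁻¹)
      fun u hu => ?_).trans ?_)
    · rw [norm_mul]
      by_cases h0 : A a u = 0
      · simp [h0]
      · simp only [mem_erase] at hu
        exact mul_le_mul_of_nonneg_left (h2 u hu.2.1 hu.1 (by
          rcases ha with rfl | rfl
          exacts [Or.inl h0, Or.inr h0])) (norm_nonneg _)
    · rw [← sum_mul]
      exact mul_le_mul_of_nonneg_right ((sum_le_sum_of_subset_of_nonneg (subset_univ _)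
        fun _ _ _ => norm_nonneg _).trans (hc a)) (by positivity)
  have h4 : ∀ a b, ‖A a b‖ ≤ c := fun a b =>
    (single_le_sum (f := fun b => ‖A a b‖) (fun _ _ => norm_nonneg _) (mem_univ b)).trans (hc a)
  have h5 : ∀ a, ∑ u, A a u * Gm A w u x = A a x * Gm A w x x + (A a y * Gm A w y x +
      ∑ u ∈ (univ.erase x).erase y, A a u * Gm A w u x) := fun a => by
    rw [add_sum_erase _ (fun u => A a u * Gm A w u x) (mem_erase.2 ⟨hxy.symm, mem_univ y⟩),
      add_sum_erase _ (fun u => A a u * Gm A w u x) (mem_univ x)]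
  have hr := row_eq h x x
  have hs := row_eq h y x
  rw [h5, hx, if_pos rfl] at hr
  rw [h5, hy, if_neg hxy.symm] at hs
  have h6 := h3 x (Or.inl rfl)
  have h7 := h3 y (Or.inr rfl)
  generalize ∑ u ∈ (univ.erase x).erase y, A x u * Gm A w u x = r at hr h6
  generalize ∑ u ∈ (univ.erase x).erase y, A y u * Gm A w u x = s at hs h7
  generalize Gm A w x x = p at *
  generalize Gm A w y x = q at *
  have e1 : ‖p‖ ≤ (c + 1) * ‖q‖ + ‖s‖ := by
    have : A y x * p = -(A y y * q) - s + I * q := by linear_combination hs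
    have h8 : ‖A y x * p‖ ≤ ‖A y y‖ * ‖q‖ + ‖s‖ + ‖q‖ := by
      rw [this]
      refine (norm_add_le _ _).trans (add_le_add ((norm_sub_le _ _).trans_eq ?_) (by simp))
      simp
    rw [norm_mul] at h8
    nlinarith [norm_nonneg p, mul_le_mul_of_nonneg_right (h4 y y) (norm_nonneg q)]
  have e2 : 1 ≤ (c + 1) * ‖p‖ + c * ‖q‖ + ‖r‖ := by
    have h8 := (norm_add_le _ _).trans' (congrArg norm hr).ge
    have h9 := (norm_add_le (A x x * p) _).trans (add_le_add le_rfl (norm_add_le (A x y * q) r))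
    simp only [norm_one, norm_mul, norm_neg, norm_I] at h8 h9
    nlinarith [mul_le_mul_of_nonneg_right (h4 x x) (norm_nonneg p),
      mul_le_mul_of_nonneg_right (h4 x y) (norm_nonneg q)]
  have e3 : (c + 1) ^ 2 * (2 * (c + 1) ^ 2)⁻¹ = 1 / 2 := by field_simp
  have e4 : 0 < (2 * (c + 1) ^ 2)⁻¹ := by positivity
  rw [inv_le_iff_one_le_mul₀ (by positivity)]
  have e5 := mul_le_mul_of_nonneg_left (e1.trans (add_le_add le_rfl h7)) (by linarith : 0 ≤ c + 1)
  nlinarith [norm_nonneg q, mul_nonneg hc0 (norm_nonneg q), mul_nonneg (sq_nonneg c) (norm_nonneg q)]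

lemma measurable_inv {X : Type} [MeasurableSpace X] {B : X → Matrix ι ι ℂ}
    (hB : ∀ a b, Measurable fun p => B p a b) (a b : ι) : Measurable fun p => (B p)⁻¹ a b := by
  have hd : ∀ {B : X → Matrix ι ι ℂ}, (∀ a b, Measurable fun p => B p a b) →
      Measurable fun p => (B p).det := fun hB => by
    simp only [det_apply']
    exact Finset.measurable_sum _ fun s _ => (Finset.measurable_prod _ fun i _ => hB _ _).const_mul _
  have : (fun p => (B p)⁻¹ a b) = fun p => (B p).det⁻¹ * ((B p).updateRow b (Pi.single a 1)).det :=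
    funext fun p => by rw [Matrix.inv_def, Ring.inverse_eq_inv', Matrix.smul_apply, adjugate_apply]; rfl
  rw [this]
  refine (hd hB).inv.mul (hd fun i j => ?_)
  simp only [updateRow_apply]
  split_ifs
  exacts [measurable_const, hB _ _]

lemma measurable_Gm {X : Type} [MeasurableSpace X] (A : Matrix ι ι ℂ) {w : X → ι → ℂ}
    (hw : ∀ a, Measurable fun p => w p a) (a b : ι) : Measurable fun p => Gm A (w p) a b := by
  refine measurable_inv (fun i j => ?_) a b
  simp only [Hm, Matrix.add_apply, diagonal_apply]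
  split_ifs
  exacts [(hw i).const_add _, measurable_const]

omit [Fintype ι] in
lemma measurable_upd {X : Type} [MeasurableSpace X] {w : X → ι → ℂ}
    (hw : ∀ a, Measurable fun p => w p a) (x : ι) (t : ℂ) (a : ι) :
    Measurable fun p => update (w p) x t a := by
  simp only [update_apply]
  split_ifs
  exacts [measurable_const, hw a]

lemma measurable_cnd {X : Type} [MeasurableSpace X] (A : Matrix ι ι ℂ) {w : X → ι → ℂ}
    (hw : ∀ a, Measurable fun p => w p a) (S : Finset ι) (x : ι) :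
    Measurable fun p => cnd A (w p) S x :=
  Finset.measurable_sum _ fun b _ => (measurable_im.comp (hw b)).neg.mul
    ((measurable_Gm A (measurable_upd hw x _) b x).norm.pow_const 2)

omit [Fintype ι] in
lemma measurable_wr {X : Type} [MeasurableSpace X] (σ : ℝ) {z : X → ℂ} {wb : X → ι → ℂ}
    (C : Finset ι) {ω : X → ι → unitInterval} (hz : Measurable z)
    (hb : ∀ a, Measurable fun p => wb p a) (hω : Measurable ω) (a : ι) :
    Measurable fun p => wr σ (z p) (wb p) C (ω p) a := by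
  simp only [wr]
  split_ifs
  · exact Measurable.sub (by fun_prop) hz
  · exact hb a

omit [Fintype ι] in
lemma wr_pos (σ : ℝ) {z : ℂ} (hz : 0 < z.im) {wb : ι → ℂ} {C : Finset ι}
    (hb : ∀ a, a ∉ C → 0 < gam wb a) (ω : ι → unitInterval) (a : ι) : 0 < gam (wr σ z wb C ω) a := by
  by_cases h : a ∈ C
  · simpa [gam, wr, h] using hz
  · simpa [gam, wr, h] using hb a h

end Abstract

section Torus

variable {d M : ℕ} [NeZero M]

lemma hop_symm : (hop d M).IsSymm := by
  ext x y
  simp only [transpose_apply, hop, neg_inj]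
  refine sum_congr rfl fun j _ => ?_
  rw [add_comm]
  simp only [@eq_comm _ y, sub_eq_iff_eq_add, @eq_comm _ x]

lemma hop_herm : (hop d M).IsHermitian := by
  ext x y
  rw [conjTranspose_apply, hop_symm.apply]
  simp only [hop, star_neg, star_sum, star_add, apply_ite star, star_one, star_zero]

lemma hop_row (x : Tor d M) : ∑ y, ‖hop d M x y‖ ≤ 2 * d := by
  refine (sum_le_sum (g := fun y => ∑ j : Fin d, ((if y = x + Pi.single j 1 then (1 : ℝ) else 0) +
    if y = x - Pi.single j 1 then 1 else 0)) fun y _ => ?_).trans_eq ?_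
  · rw [hop, norm_neg]
    refine norm_sum_le_of_le _ fun j _ => (norm_add_le _ _).trans_eq ?_
    split_ifs <;> simp
  · rw [sum_comm]; simp [sum_add_distrib]; ring

lemma wz_pos (σ : ℝ) {w0 z : ℂ} (h0 : w0.im ≤ 0) (hz : 0 < z.im) (ω : Tor d M → unitInterval)
    (a : Tor d M) : 0 < gam (wz σ w0 z ω) a :=
  wr_pos σ hz (fun _ _ => by simp only [gam, sub_im]; linarith) ω a

lemma wz_adm (σ : ℝ) {w0 z : ℂ} (h0 : w0.im ≤ 0) (hz : 0 < z.im) (ω : Tor d M → unitInterval) :
    Adm (hop d M) (wz σ w0 z ω) := adm_pos hop_symm hop_herm (wz_pos σ h0 hz ω)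

lemma le_gam_wz (σ : ℝ) {w0 : ℂ} (h0 : w0.im ≤ 0) (z : ℂ) (ω : Tor d M → unitInterval)
    (a : Tor d M) : z.im ≤ gam (wz σ w0 z ω) a := by
  simp only [gam, wz, wr]
  split_ifs <;> simp [h0]

lemma measurable_wz {X : Type} [MeasurableSpace X] (σ : ℝ) (w0 : ℂ) {z : X → ℂ}
    {ω : X → Tor d M → unitInterval} (hz : Measurable z) (hω : Measurable ω) (a : Tor d M) :
    Measurable fun p => wz σ w0 (z p) (ω p) a :=
  measurable_wr σ _ hz (fun _ => hz.const_sub w0) hω a

lemma measurable_gM {X : Type} [MeasurableSpace X] (σ : ℝ) (w0 : ℂ) {z : X → ℂ}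
    {ω : X → Tor d M → unitInterval} (hz : Measurable z) (hω : Measurable ω) :
    Measurable fun p => gM σ w0 (z p) (ω p) := measurable_Gm _ (measurable_wz σ w0 hz hω) 0 0

lemma measurable_cM {X : Type} [MeasurableSpace X] (σ : ℝ) (w0 : ℂ) {z : X → ℂ}
    {ω : X → Tor d M → unitInterval} (hz : Measurable z) (hω : Measurable ω) (x : Tor d M) :
    Measurable fun p => cM σ w0 (z p) (ω p) x := measurable_cnd _ (measurable_wz σ w0 hz hω) _ x

lemma zero_notMem_absb : (0 : Tor d M) ∉ absb d M := by simp [absb]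

end Torus

end Crest.Agent.N334.AC.E
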