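import Crest.Agent.N334.AC.E.Alg

/-!
# Row 334, S0520, part E (helper20): one-site small-ball estimates
-/

set_option autoImplicit false
set_option linter.unusedSectionVars false

open MeasureTheory Finset Matrix Complex Function
open scoped ENNReal

namespace Crest.Agent.N334.AC.E

open Crest.MathPhysics.Anderson

lemma vol_le_of_diam {S : Set unitInterval} {D : ℝ}
    (h : ∀ t ∈ S, ∀ t' ∈ S, |(t : ℝ) - t'| ≤ D) : volume S ≤ ENNReal.ofReal (2 * D) := by
  rcases S.eq_empty_or_nonempty with rfl | ⟨t, ht⟩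
  · simp
  refine (measure_mono (t := Subtype.val ⁻¹' Set.Icc ((t : ℝ) - D) (t + D)) fun s hs => ?_).trans ?_
  · have := abs_le.1 (h s hs t ht)
    exact ⟨by linarith, by linarith⟩
  · rw [unitInterval.measurePreserving_coe.measure_preimage measurableSet_Icc.nullMeasurableSet]
    refine (Measure.restrict_apply_le _ _).trans_eq ?_
    rw [Real.volume_Icc]; congr 1; ring

/-- the value at a closed site -/
noncomputable def sv (σ : ℝ) (z : ℂ) (t : unitInterval) : ℂ := ((σ * (2 * (t : ℝ) - 1) : ℝ) : ℂ) - z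

lemma norm_sv_sub {σ : ℝ} (hσ : 0 < σ) (z : ℂ) (t t' : unitInterval) :
    ‖sv σ z t - sv σ z t'‖ = 2 * σ * |(t : ℝ) - t'| := by
  rw [sv, sv, sub_sub_sub_cancel_right, ← ofReal_sub, norm_real, Real.norm_eq_abs,
    show σ * (2 * (t : ℝ) - 1) - σ * (2 * t' - 1) = 2 * σ * (t - t') by ring, abs_mul,
    abs_of_pos (by positivity)]

lemma norm_sv_le {σ : ℝ} (hσ : 0 < σ) (z : ℂ) (t : unitInterval) : ‖sv σ z t‖ ≤ σ + ‖z‖ := by
  refine (norm_sub_le _ _).trans (add_le_add ?_ le_rfl)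
  rw [norm_real, Real.norm_eq_abs, abs_le]
  constructor <;> nlinarith [t.2.1, t.2.2]

lemma sv_im (σ : ℝ) (z : ℂ) (t : unitInterval) : (sv σ z t).im = -z.im := by simp [sv]

lemma ball_affine {σ L θ a : ℝ} (hσ : 0 < σ) (hθ : θ ≤ 1 / 2) (ha : 0 < a) {z c α β : ℂ}
    (hL : ∀ t, ‖sv σ z t - c‖ ≤ L) (hα : a ≤ ‖α‖) :
    volume {t | ‖α + (sv σ z t - c) * β‖ < θ * a} ≤ ENNReal.ofReal (4 * θ * L / σ) := by
  refine (vol_le_of_diam (D := 2 * θ * L / σ) fun t ht t' ht' => ?_).trans_eq (by ring_nf)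
  simp only [Set.mem_ofPred_eq] at ht ht'
  have h1 : 2 * σ * |(t : ℝ) - t'| * ‖β‖ ≤ 2 * (θ * a) := by
    rw [← norm_sv_sub hσ z, ← norm_mul, show (sv σ z t - sv σ z t') * β =
      (α + (sv σ z t - c) * β) - (α + (sv σ z t' - c) * β) by ring]
    linarith [norm_sub_le (α + (sv σ z t - c) * β) (α + (sv σ z t' - c) * β)]
  have h2 : ‖α‖ ≤ θ * a + L * ‖β‖ := by
    have := norm_sub_le (α + (sv σ z t - c) * β) ((sv σ z t - c) * β)
    rw [add_sub_cancel_right, norm_mul] at this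
    linarith [mul_le_mul_of_nonneg_right (hL t) (norm_nonneg β)]
  have hL0 : 0 ≤ L := (norm_nonneg _).trans (hL t)
  have h3 : a / 2 ≤ L * ‖β‖ := by nlinarith
  rw [le_div_iff₀ hσ]
  refine le_of_mul_le_mul_right ?_ ha
  nlinarith [mul_le_mul_of_nonneg_left h3 (by positivity : 0 ≤ 2 * σ * |(t : ℝ) - t'|),
    mul_le_mul_of_nonneg_left h1 hL0]

variable {ι : Type} [DecidableEq ι]

lemma lint_update_le (x : ι) {f k : (ι → unitInterval) → ℝ≥0∞} (hf : Measurable f)
    (H : ∀ ω, ∫⁻ t, f (update ω x t) ≤ k ω) :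
    ∫⁻ ω, f ω ∂siteMeasure ι ≤ ∫⁻ ω, k ω ∂siteMeasure ι := by
  rw [← (Soft.measurePreserving_update x).lintegral_comp hf,
    lintegral_prod _ (hf.fun_comp (Soft.measurePreserving_update x).measurable).aemeasurable]
  exact lintegral_mono H

lemma prob_le_of_update (x : ι) {p : (ι → unitInterval) → Prop} {c : ℝ≥0∞}
    (H : ∀ ω, volume {t | p (update ω x t)} ≤ c) (hS : MeasurableSet {ω | p ω}) :
    siteMeasure ι {ω | p ω} ≤ c := by
  rw [← lintegral_indicator_one hS]
  refine (lint_update_le x (measurable_one.indicator hS) (k := fun _ => c) fun ω => ?_).trans_eq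
    (by simp)
  refine le_trans (le_of_eq ?_) (H ω)
  rw [← lintegral_indicator_one (s := {t | p (update ω x t)}) (measurable_update ω hS)]
  rfl

variable {σ L θ : ℝ} {z : ℂ} {wb : ι → ℂ} {C : Finset ι} {u : ι}

lemma wr_update (hu : u ∉ C) (ω : ι → unitInterval) (t : unitInterval) :
    wr σ z wb C (update ω u t) = wr σ z wb C ω := by
  funext y
  simp only [wr]
  split_ifs with h
  · rw [update_of_ne (by rintro rfl; exact hu h)]
  · rfl

lemma wr_insert (ω : ι → unitInterval) :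
    wr σ z wb (insert u C) ω = update (wr σ z wb C ω) u (sv σ z (ω u)) := by
  funext y
  by_cases h : y = u
  · subst h; simp [wr, sv]
  · simp [wr, h]

lemma wr_insert_update (hu : u ∉ C) (ω : ι → unitInterval) (t : unitInterval) :
    wr σ z wb (insert u C) (update ω u t) = update (wr σ z wb C ω) u (sv σ z t) := by
  rw [wr_insert, wr_update hu, update_self]

lemma wr_notMem (hu : u ∉ C) (ω : ι → unitInterval) : wr σ z wb C ω u = wb u := if_neg hu

variable [Fintype ι] {A : Matrix ι ι ℂ}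

lemma meas_wr (a : ι) : Measurable fun ω => wr σ z wb C ω a :=
  measurable_wr σ (z := fun _ => z) (wb := fun _ => wb) C (ω := fun ω => ω) measurable_const
    (fun _ => measurable_const) measurable_id a

lemma meas_G (a b : ι) : Measurable fun ω => Gm A (wr σ z wb C ω) a b := measurable_Gm A meas_wr a b

/-- standing hypotheses -/
structure Hyp (A : Matrix ι ι ℂ) (σ L θ : ℝ) (z : ℂ) (wb : ι → ℂ) : Prop where
  hs : A.IsSymm
  hh : A.IsHermitian
  hσ : 0 < σ
  hz : 0 < z.im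
  hb : ∀ a, 0 < gam wb a
  h0 : 0 < θ
  h1 : θ ≤ 1 / 2
  hL : 1 ≤ L

/-- `u` is an open port -/
structure Port (σ L : ℝ) (z : ℂ) (wb : ι → ℂ) (u : ι) : Prop where
  one : 1 ≤ gam wb u
  le : ∀ t, ‖sv σ z t - wb u‖ ≤ L

lemma Hyp.pos (H : Hyp A σ L θ z wb) (C : Finset ι) (ω : ι → unitInterval) (a : ι) :
    0 < gam (wr σ z wb C ω) a := wr_pos σ H.hz (fun a _ => H.hb a) ω a

lemma Hyp.adm (H : Hyp A σ L θ z wb) (C : Finset ι) (ω : ι → unitInterval) :
    Adm A (wr σ z wb C ω) := adm_pos H.hs H.hh (H.pos C ω)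

lemma Hyp.adm' (H : Hyp A σ L θ z wb) (C : Finset ι) (ω : ι → unitInterval) (u : ι)
    (t : unitInterval) : Adm A (update (wr σ z wb C ω) u (sv σ z t)) :=
  adm_pos H.hs H.hh (gam_update_pos (H.pos C ω) u (by rw [sv_im]; linarith [H.hz]))

lemma Hyp.den_le (H : Hyp A σ L θ z wb) (hu : u ∉ C) (hp : Port σ L z wb u)
    (ω : ι → unitInterval) (t : unitInterval) :
    ‖1 + (sv σ z t - wb u) * Gm A (wr σ z wb C ω) u u‖ ≤ 1 + L := by
  have h1 := norm_diag_le (H.adm C ω) (b := u) one_pos (by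
    simpa only [gam, wr_notMem hu] using hp.one)
  refine (norm_add_le _ _).trans ?_
  rw [norm_one, norm_mul]
  nlinarith [hp.le t, norm_nonneg (sv σ z t - wb u), norm_nonneg (Gm A (wr σ z wb C ω) u u),
    inv_one (G := ℝ)]

/-- closing one port keeps an entry away from zero -/
lemma Hyp.close (H : Hyp A σ L θ z wb) (hu : u ∉ C) (hp : Port σ L z wb u) (a b : ι) {τ : ℝ}
    (hτ : 0 < τ) : siteMeasure ι {ω | ‖Gm A (wr σ z wb (insert u C) ω) a b‖ < θ / (1 + L) * τ ∧
      τ ≤ ‖Gm A (wr σ z wb C ω) a b‖} ≤ ENNReal.ofReal (4 * θ * L / σ) := by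
  refine prob_le_of_update u (fun ω => ?_) ((measurableSet_lt (meas_G a b).norm
    measurable_const).inter (measurableSet_le measurable_const (meas_G a b).norm))
  by_cases hτ' : τ ≤ ‖Gm A (wr σ z wb C ω) a b‖
  · refine (measure_mono fun t ht => ?_).trans (ball_affine H.hσ H.h1 hτ hp.le hτ'
      (β := Gm A (wr σ z wb C ω) u u * Gm A (wr σ z wb C ω) a b -
        Gm A (wr σ z wb C ω) a u * Gm A (wr σ z wb C ω) u b))
    have h1 := rank1_mul (H.adm C ω) (H.adm' C ω u t) a b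
    have h2 := ht.1
    have h3 := H.den_le hu hp ω t
    rw [wr_notMem hu] at h1
    rw [wr_insert_update hu, div_mul_eq_mul_div, lt_div_iff₀ (by linarith [H.hL])] at h2
    rw [Set.mem_ofPred_eq, ← h1, norm_mul]
    exact (mul_le_mul_of_nonneg_left h3 (norm_nonneg _)).trans_lt h2
  · refine (measure_mono_null (t := ∅) (fun t ht => hτ' ?_) measure_empty).trans_le zero_le
    simpa only [wr_update hu] using ht.2

lemma Hyp.q_pos (H : Hyp A σ L θ z wb) : 0 < θ / (1 + L) := div_pos H.h0 (by linarith [H.hL])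

lemma Hyp.q_le (H : Hyp A σ L θ z wb) : θ / (1 + L) ≤ θ :=
  div_le_self H.h0.le (by linarith [H.hL])

lemma Hyp.close_all (H : Hyp A σ L θ z wb) (a b : ι) {τ : ℝ} (hτ : 0 < τ)
    (h0 : ∀ ω, τ ≤ ‖Gm A (wr σ z wb C ω) a b‖) (U : Finset ι) :
    (∀ u ∈ U, u ∉ C ∧ Port σ L z wb u) →
    siteMeasure ι {ω | ‖Gm A (wr σ z wb (U ∪ C) ω) a b‖ < (θ / (1 + L)) ^ #U * τ} ≤
      #U * ENNReal.ofReal (4 * θ * L / σ) := by
  induction U using Finset.induction_on with
  | empty => intro _; simp [fun ω => (h0 ω).not_gt]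
  | insert u U hu ih =>
    intro hU
    have h1 := ih fun v hv => hU v (mem_insert_of_mem hv)
    have h2 := hU u (mem_insert_self _ _)
    have h3 := H.close (C := U ∪ C) (by simp [hu, h2.1]) h2.2 a b
      (mul_pos (pow_pos H.q_pos #U) hτ)
    rw [card_insert_of_notMem hu, insert_union, Nat.cast_succ, add_mul, one_mul]
    refine (measure_mono fun ω hω => ?_).trans ((measure_union_le _ _).trans (add_le_add h1 h3))
    by_cases h : ‖Gm A (wr σ z wb (U ∪ C) ω) a b‖ < (θ / (1 + L)) ^ #U * τ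
    · exact Or.inl h
    · exact Or.inr ⟨by simpa only [Set.mem_ofPred_eq, pow_succ', mul_assoc] using hω, not_lt.1 h⟩

/-- flux from `y` into `S` -/
noncomputable def flux (A : Matrix ι ι ℂ) (w : ι → ℂ) (S : Finset ι) (y : ι) : ℝ :=
  ∑ b ∈ S, gam w b * ‖Gm A w b y‖ ^ 2

lemma meas_flux (S : Finset ι) (y : ι) : Measurable fun ω => flux A (wr σ z wb C ω) S y :=
  Finset.measurable_sum _ fun b _ => 
    (measurable_im.comp (meas_wr b)).neg.mul ((meas_G b y).norm.pow_const 2)

/-- the flux is transferred from the port `u` to `y` when `u` is closed -/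
lemma Hyp.transfer (H : Hyp A σ L θ z wb) (hu : u ∉ C) (hp : Port σ L z wb u) {S : Finset ι}
    (hS : u ∉ S) (y : ι) {τ β : ℝ} (hτ : 0 < τ) (hβ : 0 < β) :
    siteMeasure ι {ω | flux A (wr σ z wb (insert u C) ω) S y < ((θ / (1 + L)) ^ 2 * τ * β) ^ 2 ∧
      β ^ 2 ≤ flux A (wr σ z wb C ω) S u ∧ τ ≤ ‖Gm A (wr σ z wb C ω) u y‖} ≤
      ENNReal.ofReal (4 * θ * L / σ) := by
  refine prob_le_of_update u (fun ω => ?_) ((measurableSet_lt (meas_flux S y)
    measurable_const).inter ((measurableSet_le measurable_const (meas_flux S u)).inter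
    (measurableSet_le measurable_const (meas_G u y).norm)))
  refine (vol_le_of_diam (D := 2 * θ * L / σ) fun t ht t' ht' => ?_).trans_eq (by ring_nf)
  obtain ⟨h1, h2, h3⟩ := ht
  have h1' := ht'.1
  simp only [wr_update hu, wr_insert_update hu] at h1 h1' h2 h3
  have e := H.den_le hu hp ω t
  have e' := H.den_le hu hp ω t'
  have hA := H.adm C ω
  have hw := H.pos C ω
  have r := rank1 hA (H.adm' C ω u t)
  have r' := rank1 hA (H.adm' C ω u t')
  have c := rank1_col hA (H.adm' C ω u t) y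
  have c' := rank1_col hA (H.adm' C ω u t') y
  rw [← wr_notMem (σ := σ) (z := z) (wb := wb) hu ω] at e e'
  generalize wr σ z wb C ω = w at *
  set D := 1 + (sv σ z t - w u) * Gm A w u u
  set D' := 1 + (sv σ z t' - w u) * Gm A w u u
  have key : ∀ b, (Gm A (update w u (sv σ z t')) b y - Gm A (update w u (sv σ z t)) b y) * (D * D') =
      Gm A w b u * (Gm A w u y * (sv σ z t - sv σ z t')) := fun b => by
    rw [r b y, r' b y]
    linear_combination (Gm A w b u * (sv σ z t - w u) * D') * c -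
      (Gm A w b u * (sv σ z t' - w u) * D) * c'
  have h4 : flux A w S u * (‖Gm A w u y‖ * (2 * σ * |(t : ℝ) - t'|)) ^ 2 ≤
      2 * (flux A (update w u (sv σ z t')) S y + flux A (update w u (sv σ z t)) S y) *
        ((1 + L) ^ 2) ^ 2 := by
    simp only [flux, ← sum_add_distrib, mul_sum, sum_mul]
    refine sum_le_sum fun b hb => ?_
    have hb' : b ≠ u := by rintro rfl; exact hS hb
    have k := congrArg norm (key b)
    rw [norm_mul, norm_mul, norm_mul, norm_mul, norm_sv_sub H.hσ] at k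
    rw [gam_update, gam_update, if_neg hb', if_neg hb', mul_assoc, ← mul_pow, ← k, ← mul_add,
      mul_comm 2, mul_assoc, mul_assoc, mul_pow]
    refine mul_le_mul_of_nonneg_left ?_ (hw b).le
    rw [← mul_assoc]
    refine mul_le_mul ?_ (pow_le_pow_left₀ (by positivity) ?_ 2) (by positivity) (by positivity)
    · refine (pow_le_pow_left₀ (norm_nonneg _) (norm_sub_le _ _) 2).trans ?_
      nlinarith [sq_nonneg (‖Gm A (update w u (sv σ z t')) b y‖ - ‖Gm A (update w u (sv σ z t)) b y‖)]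
    · rw [sq]; exact mul_le_mul e e' (norm_nonneg _) (by linarith [H.hL])
  have hL := H.hL
  have hσ := H.hσ
  have h5 : (β * (τ * (2 * σ * |(t : ℝ) - t'|))) ^ 2 ≤ (2 * (θ ^ 2 * τ * β)) ^ 2 := by
    have e1 : (2 * (θ ^ 2 * τ * β)) ^ 2 = 2 * (((θ / (1 + L)) ^ 2 * τ * β) ^ 2 +
        ((θ / (1 + L)) ^ 2 * τ * β) ^ 2) * ((1 + L) ^ 2) ^ 2 := by field_simp; ring
    rw [mul_pow, e1]
    refine (mul_le_mul h2 ?_ (by positivity) ((sq_nonneg β).trans h2)).trans (h4.trans ?_)
    · gcongr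
    · gcongr
  have h6 := le_of_sq_le_sq h5 (by positivity)
  have h7 : σ * |(t : ℝ) - t'| ≤ θ ^ 2 :=
    le_of_mul_le_mul_left (by linarith) (by positivity : 0 < 2 * τ * β)
  rw [le_div_iff₀ hσ]
  nlinarith [H.h0, H.h1]

/-- the denominator is not small -/
lemma Hyp.den (H : Hyp A σ L θ z wb) (hu : u ∉ C) (hp : Port σ L z wb u) :
    siteMeasure ι {ω | ‖1 + (sv σ z (ω u) - wb u) * Gm A (wr σ z wb C ω) u u‖ < θ} ≤
      ENNReal.ofReal (4 * θ * L / σ) := by
  refine prob_le_of_update u (fun ω => ?_) (measurableSet_lt (Measurable.norm (Measurable.const_add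
    (Measurable.mul (by unfold sv; fun_prop) (meas_G u u)) _)) measurable_const)
  simpa only [Set.mem_ofPred_eq, wr_update hu, update_self, mul_one] using
    ball_affine H.hσ H.h1 one_pos hp.le (α := 1) (by simp)

end Crest.Agent.N334.AC.E
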