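import Crest.Agent.N334.AC.E.Step
import Crest.Agent.N334.AC.Geo

/-!
# Row 334, S0520, part E (helper20): from the good event to tightness at the origin
-/

set_option autoImplicit false
set_option linter.unusedSectionVars false

open MeasureTheory Finset Matrix Complex Function Filter Topology
open scoped ENNReal

namespace Crest.Agent.N334.AC.E

open Crest.MathPhysics.Anderson

lemma ev_measure_le {Ω X : Type} [MeasurableSpace Ω] (μ : Measure Ω) [IsFiniteMeasure μ]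
    {l : Filter X} [l.IsCountablyGenerated] {B : X → Set Ω} (hB : ∀ x, MeasurableSet (B x))
    {a b : ℝ≥0∞} (hab : a < b)
    (h : ∀ S, MeasurableSet S → (∀ ω ∈ S, ∃ᶠ x in l, ω ∈ B x) → μ S ≤ a) :
    ∀ᶠ x in l, μ (B x) ≤ b := by
  by_contra hc
  obtain ⟨s, hs, h1⟩ := exists_seq_forall_of_frequently (not_eventually.1 hc)
  have hm : ∀ n, MeasurableSet (⋃ m ≥ n, B (s m)) := fun n =>
    .biUnion (Set.to_countable _) fun m _ => hB _
  have h2 := tendsto_measure_iInter_atTop (μ := μ) (fun n => (hm n).nullMeasurableSet)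
    (fun n n' hn => Set.biUnion_subset_biUnion_left fun m hm => le_trans hn hm)
    ⟨0, measure_ne_top _ _⟩
  refine hab.not_ge ((ge_of_tendsto' h2 fun n => (not_le.1 (h1 n)).le.trans (measure_mono
    (Set.subset_biUnion_of_mem (u := fun m => B (s m)) (le_refl n)))).trans
    (h _ (.iInter hm) fun ω hω => hs.frequently (frequently_atTop.2 fun n => ?_)))
  simpa using Set.mem_iInter.1 hω n

variable {d M : ℕ} [NeZero M] {σ L θ : ℝ} {w0 z : ℂ}

/-- reduction mod `M` -/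
def ct (M : ℕ) (u : Fin d → ℤ) : Tor d M := fun j => (u j : ZMod M)

lemma ct_add (u : Fin d → ℤ) (j : Fin d) : ct M (u + Pi.single j 1) = ct M u + Pi.single j 1 := by
  funext i
  by_cases h : i = j
  · subst h; simp [ct]
  · simp [ct, h]

lemma ct_sub (u : Fin d → ℤ) (j : Fin d) : ct M (u - Pi.single j 1) = ct M u - Pi.single j 1 := by
  rw [eq_sub_iff_add_eq, ← ct_add, sub_add_cancel]

lemma ct_core {u : Fin d → ℤ} {ρ : ℕ} (hu : ∀ j, (u j).natAbs ≤ ρ) (hM : 4 * ρ ≤ M) :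
    ct M u ∈ (absb d M)ᶜ := by
  simp only [absb, mem_compl, mem_filter, mem_univ, true_and, not_exists, not_and, not_lt]
  intro j _
  have := ZMod.natAbs_min_of_le_div_two M (u j : ZMod M).valMinAbs (u j) (by simp)
    (ZMod.natAbs_valMinAbs_le _)
  have := hu j
  simp only [ct]; omega

/-- neighbours -/
def nb (x : Tor d M) : Finset (Tor d M) :=
  (univ.image fun j => x + Pi.single j 1) ∪ univ.image fun j => x - Pi.single j 1

lemma card_nb (x : Tor d M) : #(nb x) ≤ 2 * d := by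
  refine (card_union_le _ _).trans ((add_le_add card_image_le card_image_le).trans_eq ?_)
  simp; ring

lemma mem_nb {x y : Tor d M} (h : hop d M x y ≠ 0) : y ∈ nb x := by
  by_contra hc
  simp only [nb, mem_union, mem_image, mem_univ, true_and, not_or, not_exists] at hc
  refine h (neg_eq_zero.2 (sum_eq_zero fun j _ => ?_))
  rw [if_neg (Ne.symm (hc.1 j)), if_neg (Ne.symm (hc.2 j)), add_zero]

lemma one_le_hop {x y : Tor d M} (h : y ∈ nb x) : 1 ≤ ‖hop d M x y‖ := by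
  have e : hop d M x y = -((∑ j : Fin d, ((if y = x + Pi.single j 1 then (1 : ℝ) else 0) +
      if y = x - Pi.single j 1 then 1 else 0) : ℝ) : ℂ) := by
    simp only [hop, ofReal_sum, ofReal_add, apply_ite ofReal, ofReal_one, ofReal_zero]
  have h0 : ∀ j : Fin d, 0 ≤ (if y = x + Pi.single j 1 then (1 : ℝ) else 0) +
      if y = x - Pi.single j 1 then 1 else 0 := fun j => by positivity
  rw [e, norm_neg, norm_real, Real.norm_of_nonneg (sum_nonneg fun j _ => h0 j)]
  simp only [nb, mem_union, mem_image, mem_univ, true_and] at h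
  rcases h with ⟨j, h⟩ | ⟨j, h⟩ <;>
  · refine le_trans ?_ (single_le_sum (fun j _ => h0 j) (mem_univ j))
    rw [if_pos h.symm]
    split_ifs <;> norm_num

lemma nb_core {u : Fin d → ℤ} {ρ : ℕ} (hu : ∀ j, (u j).natAbs ≤ ρ) (hM : 4 * (ρ + 1) ≤ M) :
    nb (ct M u) ⊆ (absb d M)ᶜ := fun y hy => by
  simp only [nb, mem_union, mem_image, mem_univ, true_and, ← ct_add, ← ct_sub] at hy
  rcases hy with ⟨j, rfl⟩ | ⟨j, rfl⟩ <;>
  · refine ct_core (fun i => ?_) hM
    have := hu i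
    by_cases h : i = j
    · subst h; simp; omega
    · simp [h]; omega

/-- loss of one step -/
noncomputable def Qc (d : ℕ) (L θ : ℝ) : ℝ :=
  (θ / (1 + L)) ^ (4 * d + 1 + 3) * (4 * (2 * (d : ℝ) + 1) ^ 2)⁻¹

lemma Qc_pos (hL : 0 ≤ L) (h0 : 0 < θ) : 0 < Qc d L θ := by unfold Qc; positivity

lemma Qc_le (hL : 0 ≤ L) (h0 : 0 < θ) (h1 : θ ≤ 1 / 2) : Qc d L θ ≤ 1 :=
  mul_le_one₀ (pow_le_one₀ (by positivity) ((div_le_self h0.le (by linarith)).trans (by linarith)))
    (by positivity) (inv_le_one_of_one_le₀ (by nlinarith [Nat.cast_nonneg (α := ℝ) d]))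

lemma tstep (hσ : 0 < σ) (hw : w0.im ≤ 0) (hz : 0 < z.im)
    (hL : σ + ‖z‖ + 4 * (2 * (d : ℝ) + 1) ^ 4 ≤ L) (h0 : 0 < θ) (h1 : θ ≤ 1 / 2) {R : ℕ}
    (hM : 4 * (R + 1) ≤ M) {u u' : Fin d → ℤ} (hu : ∀ j, (u j).natAbs ≤ R)
    (hu' : ∀ j, (u' j).natAbs ≤ R) (hn : ct M u ∈ nb (ct M u')) {β : ℝ} (hβ : 0 < β) :
    siteMeasure (Tor d M) {ω | cM σ w0 z ω (ct M u') < (Qc d L θ * β) ^ 2 ∧
      β ^ 2 ≤ cM σ w0 z ω (ct M u)} ≤ ((4 * d + 1 : ℕ) + 2) * ENNReal.ofReal (4 * θ * L / σ) := by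
  have hne : ct M u' ≠ ct M u := fun h => by
    have : Fact (1 < M) := ⟨by omega⟩
    simp only [nb, mem_union, mem_image, mem_univ, true_and, ← h, add_eq_left, sub_eq_self] at hn
    rcases hn with ⟨j, h⟩ | ⟨j, h⟩ <;> simpa using congrFun h j
  refine step hop_symm hop_herm hσ hz (fun _ _ => by simp only [gam, sub_im]; linarith) hop_row
    (ct_core hu (by omega)) (one_le_hop hn)
    (U := (insert (ct M u') (nb (ct M u) ∪ nb (ct M u'))).erase (ct M u))
    ((erase_subset _ _).trans (insert_subset (ct_core hu' (by omega))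
      (union_subset (nb_core hu hM) (nb_core hu' hM)))) (notMem_erase _ _)
    (mem_erase.2 ⟨hne, mem_insert_self _ _⟩) (fun a ha h => mem_erase.2 ⟨ha, mem_insert_of_mem
      (mem_union.2 (h.imp mem_nb mem_nb))⟩) ?_ disjoint_compl_right hL h0 h1 hβ
  refine card_erase_le.trans ((card_insert_le _ _).trans ?_)
  have := card_union_le (nb (ct M u)) (nb (ct M u'))
  have := card_nb (ct M u)
  have := card_nb (ct M u')
  omega

lemma chain (hσ : 0 < σ) (hw : w0.im ≤ 0) (hz : 0 < z.im)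
    (hL : σ + ‖z‖ + 4 * (2 * (d : ℝ) + 1) ^ 4 ≤ L) (h0 : 0 < θ) (h1 : θ ≤ 1 / 2) {R : ℕ}
    (hM : 4 * (R + 1) ≤ M) (k : ℕ) : ∀ u : Fin d → ℤ, (∀ j, (u j).natAbs ≤ R) →
      ∑ j, (u j).natAbs ≤ k → ∀ β : ℝ, 0 < β →
      siteMeasure (Tor d M) {ω | cM σ w0 z ω 0 < (Qc d L θ ^ k * β) ^ 2 ∧
        β ^ 2 ≤ cM σ w0 z ω (ct M u)} ≤
        k * (((4 * d + 1 : ℕ) + 2) * ENNReal.ofReal (4 * θ * L / σ)) := by
  have hL0 : 0 ≤ L := le_trans (by positivity) hL
  have hQ := Qc_pos (d := d) hL0 h0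
  have hz0 : ∀ (k : ℕ) (β : ℝ), 0 < β → siteMeasure (Tor d M) {ω | cM σ w0 z ω 0 <
      (Qc d L θ ^ k * β) ^ 2 ∧ β ^ 2 ≤ cM σ w0 z ω (ct M 0)} = 0 := fun k β hβ => by
    refine measure_mono_null (fun ω hω => ?_) measure_empty
    have e : ct M (0 : Fin d → ℤ) = 0 := funext fun j => by simp [ct]
    refine (hω.1.trans_le ?_).not_ge (e ▸ hω.2)
    exact pow_le_pow_left₀ (by positivity) (mul_le_of_le_one_left hβ.le
      (pow_le_one₀ hQ.le (Qc_le hL0 h0 h1))) 2
  induction k with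
  | zero =>
    intro u _ h β hβ
    obtain rfl : u = 0 := funext fun j => by simpa using sum_eq_zero_iff.1 (Nat.le_zero.1 h) j
    exact (hz0 0 β hβ).trans_le zero_le
  | succ k ih =>
    intro u hu h β hβ
    by_cases hu0 : u = 0
    · subst hu0; exact (hz0 _ β hβ).trans_le zero_le
    obtain ⟨j, hj⟩ := Function.ne_iff.1 hu0
    obtain ⟨u', h2, h3, h4⟩ : ∃ u' : Fin d → ℤ, ct M u ∈ nb (ct M u') ∧
        (u' j).natAbs + 1 = (u j).natAbs ∧ ∀ i, i ≠ j → u' i = u i := by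
      rcases lt_or_gt_of_ne hj with hj | hj
      · refine ⟨u + Pi.single j 1, mem_union_right _ (mem_image.2 ⟨j, mem_univ _, ?_⟩), ?_,
          fun i hi => by simp [hi]⟩
        · rw [ct_add, add_sub_cancel_right]
        · simp at hj ⊢; omega
      · refine ⟨u - Pi.single j 1, mem_union_left _ (mem_image.2 ⟨j, mem_univ _, ?_⟩), ?_,
          fun i hi => by simp [hi]⟩
        · rw [ct_sub, sub_add_cancel]
        · simp at hj ⊢; omega
    have h5 : ∀ i, (u' i).natAbs ≤ R := fun i => by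
      have := hu i
      by_cases hi : i = j
      · subst hi; omega
      · rwa [h4 i hi]
    have h6 : ∑ i, (u' i).natAbs ≤ k := by
      rw [← add_sum_erase _ _ (mem_univ j)] at h ⊢
      rw [sum_congr rfl fun i hi => by rw [h4 i (mem_erase.1 hi).1]]
      omega
    rw [Nat.cast_succ, add_mul, one_mul]
    refine (measure_mono fun ω hω => ?_).trans ((measure_union_le _ _).trans (add_le_add
      (ih u' h5 h6 _ (mul_pos hQ hβ)) (tstep hσ hw hz hL h0 h1 hM hu h5 h2 hβ)))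
    by_cases h : cM σ w0 z ω (ct M u') < (Qc d L θ * β) ^ 2
    · exact Or.inr ⟨h, hω.2⟩
    · exact Or.inl ⟨by simpa only [pow_succ (Qc d L θ), mul_assoc] using hω.1, not_lt.1 h⟩

lemma good_ev {E κ : ℝ} {R : ℕ} {ω : Tor d M → unitInterval} (hκ : 0 < κ) (hw : w0.im ≤ 0)
    (hL : 3 + |E| ≤ L) (h : Good E w0 κ R fun x => σ * (2 * (ω x : ℝ) - 1)) :
    ∀ᶠ z in 𝓝[{z : ℂ | 0 < z.im}] (E : ℂ), ∃ x ∈ tball (0 : Tor d M) R,
      κ / 2 / (1 + L / κ) ^ 2 ≤ cM σ w0 z ω x := by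
  obtain ⟨x, hx, hxa, wx, hn, hi, hu, hk⟩ := h
  set wo := wObs (fun x => σ * (2 * (ω x : ℝ) - 1)) w0 x wx
  have e1 : ∀ z, Hm (hop d M) (update (wz σ w0 z ω) x (wx - z)) =
      Hm (Aop d M E) wo - (z - E) • 1 := fun z => by
    ext a b
    by_cases hab : a = b
    · subst hab
      simp only [Hm, Aop, wo, wObs, wz, wr, Matrix.add_apply, Matrix.sub_apply, Matrix.smul_apply,
        diagonal_apply_eq, one_apply_eq, smul_eq_mul, update_apply, mem_compl]
      split_ifs with h1 h2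
      · exact absurd (h1 ▸ h2) hxa
      all_goals ring
    · simp [Hm, Aop, hab]
  have e2 : ContinuousAt (fun z : ℂ => ∑ b ∈ absb d M,
      -w0.im * ‖(Hm (Aop d M E) wo - (z - E) • 1)⁻¹ x b‖ ^ 2) E := by
    have : ContinuousAt (fun z : ℂ => (Hm (Aop d M E) wo - (z - E) • 1)⁻¹) E :=
      ContinuousAt.comp_of_eq (continuousAt_matrix_inv (Hm (Aop d M E) wo) (by
        rw [Ring.inverse_eq_inv']; exact continuousAt_inv₀ hu.ne_zero)) (by fun_prop) (by simp)
    exact tendsto_finsetSum _ fun b _ => (((continuous_apply_apply x b).continuousAt.comp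
      this).norm.pow 2).const_mul _
  have e3 : κ / 2 < ∑ b ∈ absb d M,
      -w0.im * ‖(Hm (Aop d M E) wo - ((E : ℂ) - E) • 1)⁻¹ x b‖ ^ 2 := by
    refine (half_lt_self hκ).trans_le (hk.trans (sum_le_sum fun b hb => ?_))
    have g1 : gam wo b = -w0.im := by simp [gam, wo, wObs, hb]
    have g2 : gam wo x = -wx.im := by simp [gam, wo, wObs, hxa]
    have g3 : -wx.im ≤ 1 := by linarith [neg_le_abs wx.im, abs_im_le_norm wx]
    rw [sub_self, zero_smul, sub_zero, Km, norm_mul, norm_mul, mul_pow, mul_pow, norm_real,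
      norm_real, Real.norm_eq_abs, Real.norm_eq_abs, sq_abs, sq_abs, g1, g2,
      Real.sq_sqrt (by linarith), Real.sq_sqrt (by linarith), mul_comm, Gm]
    exact mul_le_mul_of_nonneg_left (mul_le_of_le_one_left (sq_nonneg _) g3) (by linarith)
  have e4 : ∀ᶠ z in 𝓝 (E : ℂ), ‖z‖ < |E| + 1 :=
    continuous_norm.continuousAt.eventually_lt_const (by simp)
  filter_upwards [nhdsWithin_le_nhds (e2.eventually_const_lt e3), nhdsWithin_le_nhds e4,
    self_mem_nhdsWithin] with z h1 h2 hz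
  refine ⟨x, hx, ?_⟩
  have hz : 0 < z.im := hz
  have hp := wz_pos σ hw hz ω
  have hA := adm_pos hop_symm hop_herm (gam_update_pos hp x (t := wx - z) (by simp; linarith))
  have hA' := adm_pos hop_symm hop_herm (gam_update_pos (gam_update_pos hp x (t := wx - z)
    (by simp; linarith)) x (t := -I) (by simp))
  have h3 := norm_diag_le hA (b := x) hκ (by simp [gam_update]; linarith)
  have h4 : ‖1 + (-I - (wx - z)) * Gm (hop d M) (update (wz σ w0 z ω) x (wx - z)) x x‖ ≤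
      1 + L / κ := by
    refine (norm_add_le _ _).trans ?_
    rw [norm_one, norm_mul, div_eq_mul_inv]
    have : ‖-I - (wx - z)‖ ≤ L := by
      refine (norm_sub_le _ _).trans ?_
      rw [norm_neg, norm_I]
      linarith [norm_sub_le wx z]
    gcongr
    exact (norm_nonneg _).trans this
  rw [← e1] at h1
  rw [div_le_iff₀ (by have := (abs_nonneg E).trans (by linarith : |E| ≤ L); positivity), cM, cnd,
    sum_mul]
  refine h1.le.trans (sum_le_sum fun b hb => ?_)
  have h5 := rank1_col hA hA' b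
  rw [update_idem, update_self] at h5
  rw [← Gm, ← h5, G_symm hop_symm _ b x, norm_mul, mul_pow, mul_assoc]
  have h6 : -w0.im ≤ gam (wz σ w0 z ω) b := by simp [gam, wz, wr, hb, hz.le]
  gcongr
  exact (hp b).le

theorem tight (hD : DigitStmt) (hd : 1 ≤ d) (hσ : 0 < σ) {κ : ℝ} (hκ : 0 < κ)
    (h : ∀ ε > (0 : ℝ), ∃ R : ℕ, ∀ E₀ : ℝ, InWin d E₀ → ∀ M₀ : ℕ, ∃ (M : ℕ) (_ : NeZero M), M₀ ≤ M ∧
      ∃ w0 : ℂ, ‖w0‖ ≤ 1 ∧ κ ≤ -w0.im ∧ ∃ N : ℕ, 0 < N ∧
        ∀ E : ℝ, InWin d E → |E - E₀| ≤ σ ^ 2 →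
          ∀ r : Tor d M → ℝ, (∀ x, 0 ≤ r x ∧ r x ≤ 1) →
            badFrac σ E w0 κ R N r (fun _ => range N) ≤ ε) : Tight d σ := by
  intro ε hε
  obtain ⟨R, hR⟩ := h (ε / 4) (by positivity)
  set L : ℝ := σ + (2 * d + 3) + 4 * (2 * (d : ℝ) + 1) ^ 4
  have hL : 0 < L := by positivity
  set c : ℝ := (2 * R + 1) ^ d * ((d * R : ℕ) * (((4 * d + 1 : ℕ) + 2) * (4 * L / σ)))
  have hc : 0 ≤ c := by positivity
  obtain ⟨θ, h0, h1, h2⟩ : ∃ θ : ℝ, 0 < θ ∧ θ ≤ 1 / 2 ∧ c * θ ≤ ε / 2 :=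
    ⟨min (1 / 2) (ε / 2 / (c + 1)), by positivity, min_le_left _ _, by
      refine (mul_le_mul_of_nonneg_left (min_le_right _ _) hc).trans ?_
      rw [← mul_div_assoc, div_le_iff₀ (by positivity)]; nlinarith⟩
  set β := √(κ / 2 / (1 + L / κ) ^ 2)
  have hβ : 0 < β := Real.sqrt_pos.2 (by positivity)
  refine ⟨(Qc d L θ ^ (d * R) * β) ^ 2, pow_pos (mul_pos (pow_pos (Qc_pos hL.le h0) _) hβ) 2,
    fun a ha M₀ => ?_⟩
  obtain ⟨M, hM, hM0, w0, hw1, hw2, N, hN, hb⟩ := hR a ⟨ha.1.le, ha.2.le⟩ (max M₀ (4 * (R + 1)))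
  have hw : w0.im ≤ 0 := by linarith
  refine ⟨M, hM, le_of_max_le_left hM0, w0, hw1, hw, fun E hE hEa => ?_⟩
  have hE' : |E| ≤ 2 * d := by
    have : (1 : ℝ) ≤ d := by exact_mod_cast hd
    exact abs_le.2 ⟨by linarith [hE.1], by linarith [hE.2]⟩
  have hbad := ev_measure_le (siteMeasure (Tor d M)) (l := 𝓝[{z : ℂ | 0 < z.im}] (E : ℂ))
    (B := fun z => ⋂ x ∈ tball (0 : Tor d M) R, {ω | cM σ w0 z ω x < β ^ 2})
    (fun z => Finset.measurableSet_biInter _ fun x _ => measurableSet_lt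
      (measurable_cM σ w0 (z := fun _ => z) (ω := fun ω => ω) measurable_const measurable_id x)
      measurable_const)
    ((ENNReal.ofReal_lt_ofReal_iff (half_pos hε)).2 (by linarith : ε / 4 < ε / 2))
    fun S hS hS' => hD d M σ E w0 κ R N _ hN (hb E ⟨hE.1.le, hE.2.le⟩ hEa) S hS fun ω hω hg => by
      obtain ⟨z, g1, x, hx, g2⟩ := ((hS' ω hω).and_eventually (good_ev (L := L) hκ hw (by
        have : 0 ≤ 4 * (2 * (d : ℝ) + 1) ^ 4 := by positivity
        simp only [L]; linarith) hg)).exists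
      refine not_le.2 (show cM σ w0 z ω x < β ^ 2 from Set.mem_iInter₂.1 g1 x hx) ?_
      rwa [Real.sq_sqrt (by positivity)]
  have e4 : ∀ᶠ z in 𝓝 (E : ℂ), ‖z‖ < |E| + 1 :=
    continuous_norm.continuousAt.eventually_lt_const (by simp)
  filter_upwards [hbad, nhdsWithin_le_nhds e4, self_mem_nhdsWithin] with z g1 g2 hz
  have g3 : ∀ x ∈ tball (0 : Tor d M) R, siteMeasure (Tor d M) {ω | cM σ w0 z ω 0 <
      (Qc d L θ ^ (d * R) * β) ^ 2 ∧ β ^ 2 ≤ cM σ w0 z ω x} ≤
      ENNReal.ofReal ((d * R : ℕ) * (((4 * d + 1 : ℕ) + 2) * (4 * θ * L / σ))) := fun x hx => by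
    have hu : ∀ j, (x j).valMinAbs.natAbs ≤ R := fun j => by
      simpa using (le_sup (f := fun j => (x j - (0 : Tor d M) j).valMinAbs.natAbs)
        (mem_univ j)).trans (mem_tball.1 hx)
    have := chain hσ hw hz (L := L) (by simp only [L]; linarith) h0 h1 (le_of_max_le_right hM0)
      (d * R) (fun j => (x j).valMinAbs) hu (by simpa using sum_le_card_nsmul univ _ R fun j _ => hu j)
      β hβ
    rw [show ct M (fun j => (x j).valMinAbs) = x from funext fun j => by simp [ct]] at this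
    rw [ENNReal.ofReal_mul (by positivity), ENNReal.ofReal_mul (by positivity),
      ENNReal.ofReal_add (by positivity) (by positivity), ENNReal.ofReal_natCast,
      ENNReal.ofReal_natCast, ENNReal.ofReal_ofNat]
    exact this
  refine (measure_mono (t := _ ∪ ⋃ x ∈ tball (0 : Tor d M) R, _) fun ω hω => ?_).trans
    ((measure_union_le _ _).trans ((add_le_add g1 ((measure_biUnion_finset_le _ _).trans
      (sum_le_card_nsmul _ _ _ g3))).trans ?_))
  · by_contra hcon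
    simp only [Set.mem_union, Set.mem_iInter, Set.mem_iUnion, Set.mem_ofPred_eq, not_or, not_forall,
      not_exists, not_and, not_lt] at hcon
    obtain ⟨⟨x, hx, g4⟩, g5⟩ := hcon
    exact g5 x hx hω g4
  · rw [nsmul_eq_mul, ← ENNReal.ofReal_natCast, ← ENNReal.ofReal_mul (by positivity),
      ← ENNReal.ofReal_add (by positivity) (by positivity), card_tball]
    refine ENNReal.ofReal_le_ofReal ?_
    have := mul_le_mul_of_nonneg_right (vol_le (d := d) (M := M) R)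
      (by positivity : 0 ≤ ((d * R : ℕ) : ℝ) * (((4 * d + 1 : ℕ) + 2) * (4 * θ * L / σ)))
    have e : (2 * R + 1) ^ d * (((d * R : ℕ) : ℝ) * (((4 * d + 1 : ℕ) + 2) * (4 * θ * L / σ))) =
        c * θ := by simp only [c]; ring
    linarith

end Crest.Agent.N334.AC.E
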