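import Crest.Agent.N334.AC.Iface
import Crest.Agent.N334.End.Min

/-!
# Row 334, S0520, part E (helper20): definitions and statements

Chain: `OutStmt → Tight` (E/Alg, E/Ball, E/Digit, E/Chain) `→ FinUI` (E/Pois) `→ UI` (E/Vol)
`→ ACv` a.s. (E/ACd) `→` density (E/Dens); assembled in E/Main.
-/

set_option autoImplicit false

open MeasureTheory Finset Filter Topology

namespace Crest.Agent.N334.AC.E

open Crest.MathPhysics Crest.MathPhysics.Anderson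

/-- the open energy window -/
def Win (d : ℕ) : Set ℝ := Set.Ioo (-2 * (d : ℝ) + 1 / 400) (-2 * (d : ℝ) + 1 / 100)

section Abstract

variable {ι : Type} [Fintype ι] [DecidableEq ι]

/-- random values `σ (2 ω_y - 1) - z` on `C`, fixed values `wb` off `C` -/
noncomputable def wr (σ : ℝ) (z : ℂ) (wb : ι → ℂ) (C : Finset ι) (ω : ι → unitInterval) : ι → ℂ :=
  fun y => if y ∈ C then ((σ * (2 * (ω y : ℝ) - 1) : ℝ) : ℂ) - z else wb y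

/-- conductance from `x` (opened with the value `-i`) to the set `S` -/
noncomputable def cnd (A : Matrix ι ι ℂ) (w : ι → ℂ) (S : Finset ι) (x : ι) : ℝ :=
  ∑ b ∈ S, gam w b * ‖Gm A (Function.update w x (-Complex.I)) b x‖ ^ 2

end Abstract

section Torus

variable {d M : ℕ} [NeZero M]

/-- diagonal of the torus system at the spectral parameter `z` -/
noncomputable def wz (σ : ℝ) (w0 z : ℂ) (ω : Tor d M → unitInterval) : Tor d M → ℂ :=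
  wr σ z (fun _ => w0 - z) (absb d M)ᶜ ω

/-- Green function of the torus system at the origin -/
noncomputable def gM (σ : ℝ) (w0 z : ℂ) (ω : Tor d M → unitInterval) : ℂ :=
  Gm (hop d M) (wz σ w0 z ω) 0 0

/-- conductance of the site `x` to the absorber -/
noncomputable def cM (σ : ℝ) (w0 z : ℂ) (ω : Tor d M → unitInterval) (x : Tor d M) : ℝ :=
  cnd (hop d M) (wz σ w0 z ω) (absb d M) x

end Torus

/-- the conductance of the origin is tight away from zero near the real axis -/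
def Tight (d : ℕ) (σ : ℝ) : Prop :=
  ∀ ε > (0 : ℝ), ∃ δ > (0 : ℝ), ∀ a ∈ Win d, ∀ M₀ : ℕ, ∃ (M : ℕ) (_ : NeZero M), M₀ ≤ M ∧
    ∃ w0 : ℂ, ‖w0‖ ≤ 1 ∧ w0.im ≤ 0 ∧ ∀ E ∈ Win d, |E - a| ≤ σ ^ 2 →
      ∀ᶠ z in 𝓝[{z : ℂ | 0 < z.im}] (E : ℂ),
        siteMeasure (Tor d M) {ω | cM σ w0 z ω 0 < δ} ≤ ENNReal.ofReal ε

/-- uniform integrability in finite volume -/
def FinUI (d : ℕ) (σ : ℝ) : Prop :=
  ∀ ε > (0 : ℝ), ∃ K : ℝ, ∀ a ∈ Win d, ∀ᶠ η in 𝓝[>] (0 : ℝ), ∀ M₀ : ℕ,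
    ∃ (M : ℕ) (_ : NeZero M), M₀ ≤ M ∧ ∃ w0 : ℂ, ‖w0‖ ≤ 1 ∧ w0.im ≤ 0 ∧
      ∫⁻ ω, ENNReal.ofReal ((gM σ w0 ⟨a, η⟩ ω).im - K) ∂siteMeasure (Tor d M) ≤ ENNReal.ofReal ε

/-- uniform integrability of `Im G(x, x; a + iη)` on `ℤ^d` -/
def UI (d : ℕ) (σ : ℝ) (x : Fin d → ℤ) : Prop :=
  ∀ ε > (0 : ℝ), ∃ K : ℝ, ∀ a ∈ Win d, ∀ᶠ η in 𝓝[>] (0 : ℝ),
    ∫⁻ ω, ENNReal.ofReal ((End.g (-1) σ a η ω x x).im - K) ∂siteMeasure (Fin d → ℤ) ≤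
      ENNReal.ofReal ε

/-- `ε`-`δ` absolute continuity on `I` of the spectral measure of `ψ` -/
def ACv {d : ℕ} (H : Ell2 d →L[ℂ] Ell2 d) (I : Set ℝ) (ψ : Ell2 d) : Prop :=
  ∀ ε > (0 : ℝ), ∃ δ > (0 : ℝ), ∀ f : ℝ → ℝ, Continuous f → (∀ t, 0 ≤ f t ∧ f t ≤ 1) →
    Function.support f ⊆ I → ∫ t, f t ≤ δ → End.qf H ψ f ≤ ε

/-- leaf E/Digit: from digit fields to the product measure -/
def DigitStmt : Prop :=
  ∀ (d M : ℕ) [NeZero M] (σ E : ℝ) (w0 : ℂ) (κ : ℝ) (R N : ℕ) (ε : ℝ), 0 < N →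
    (∀ r : Tor d M → ℝ, (∀ x, 0 ≤ r x ∧ r x ≤ 1) →
      badFrac σ E w0 κ R N r (fun _ => range N) ≤ ε) →
    ∀ S : Set (Tor d M → unitInterval), MeasurableSet S →
      (∀ ω ∈ S, ¬ Good E w0 κ R fun x => σ * (2 * (ω x : ℝ) - 1)) →
      siteMeasure (Tor d M) S ≤ ENNReal.ofReal ε

/-- spectral averaging at the origin (E/Ball) -/
def EbStmt : Prop :=
  ∀ (d M : ℕ) [NeZero M] (σ : ℝ) (w0 z : ℂ) (δ : ℝ), 0 < σ → w0.im ≤ 0 → 0 < z.im → 0 < δ →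
    ∫⁻ ω, ENNReal.ofReal ((gM σ w0 z ω).im - δ⁻¹) ∂siteMeasure (Tor d M) ≤
      ENNReal.ofReal (Real.pi / (2 * σ)) * siteMeasure (Tor d M) {ω | cM σ w0 z ω 0 < δ}

/-- leaf E/Pois: mean value property of the Herglotz function `gM` -/
def PoisStmt : Prop := EbStmt → ∀ (d : ℕ) (σ : ℝ), 0 < σ → Tight d σ → FinUI d σ

/-- leaf E/Vol: infinite-volume limit at fixed `η` -/
def VolStmt : Prop := ∀ (d : ℕ) (σ : ℝ), 0 < σ → FinUI d σ → ∀ x, UI d σ x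

/-- leaf E/ACd: uniform integrability gives absolute continuity -/
def ACdStmt : Prop := ∀ (d : ℕ) (σ : ℝ), 0 < σ → ∀ x, UI d σ x →
  ∀ᵐ ω ∂siteMeasure (Fin d → ℤ), ACv (End.Hm (-1) σ ω) (Win d) (End.dl x)

/-- leaf E/Dens: the density -/
def DensStmt : Prop := ∀ (d : ℕ) (H : Ell2 d →L[ℂ] Ell2 d), IsSelfAdjoint H → ∀ α β : ℝ,
  (∀ x, ACv H (Set.Ioo α β) (End.dl x)) → ∀ ψ : Ell2 d,
    ∃ g : ℝ → ℝ, IntegrableOn g (Set.Ioo α β) ∧ ∀ f : ℝ → ℝ, Continuous f →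
      Function.support f ⊆ Set.Ioo α β →
        inner ℂ ψ (cfc (fun z : ℂ => ((f z.re : ℝ) : ℂ)) H ψ) =
          ((∫ E in Set.Ioo α β, f E * g E : ℝ) : ℂ)

end Crest.Agent.N334.AC.E
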