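import Crest.Agent.N334.AC.E.Defs

/-!
# Row 334, S0520, part E: the density (typed by helper66 after helper20's sketch)
-/

set_option autoImplicit false

open MeasureTheory Filter Topology Complex
open scoped InnerProductSpace CompactlySupported ENNReal

namespace Crest.Agent.N334.AC.E

open Crest.MathPhysics Crest.MathPhysics.Anderson End

namespace Dens

section General

variable {E : Type} [NormedAddCommGroup E] [InnerProductSpace ℂ E] [CompleteSpace E]
  {H : E →L[ℂ] E} {f : ℝ → ℝ}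

lemma qf_eq_sq (ψ : E) (hf : Continuous f) (h0 : ∀ t, 0 ≤ f t) :
    qf H ψ f = ‖cfc (fun t => √(f t)) H ψ‖ ^ 2 := by
  have hs : IsSelfAdjoint (cfc (fun t => √(f t)) H) := cfc_predicate _ _
  have e : cfc f H = cfc (fun t => √(f t)) H * cfc (fun t => √(f t)) H := by
    rw [← cfc_mul _ _ H]
    exact cfc_congr fun t _ => (Real.mul_self_sqrt (h0 t)).symm
  rw [qf, e, mul_apply_eq_comp]
  exact ((inner_self_eq_norm_sq (𝕜 := ℂ) _).symm.trans (congrArg re (hs.isSymmetric ψ _))).symm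

lemma qf_nonneg (ψ : E) (hf : Continuous f) (h0 : ∀ t, 0 ≤ f t) : 0 ≤ qf H ψ f := by
  rw [qf_eq_sq ψ hf h0]; positivity

lemma qf_add_le (ψ φ : E) (hf : Continuous f) (h0 : ∀ t, 0 ≤ f t) :
    qf H (ψ + φ) f ≤ 2 * qf H ψ f + 2 * qf H φ f := by
  simp only [qf_eq_sq _ hf h0, map_add]
  generalize cfc (fun t => √(f t)) H ψ = u
  generalize cfc (fun t => √(f t)) H φ = v
  nlinarith [pow_le_pow_left₀ (norm_nonneg _) (norm_add_le u v) 2, sq_nonneg (‖u‖ - ‖v‖)]

lemma qf_smul (c : ℂ) (ψ : E) (hf : Continuous f) (h0 : ∀ t, 0 ≤ f t) :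
    qf H (c • ψ) f = ‖c‖ ^ 2 * qf H ψ f := by
  simp only [qf_eq_sq _ hf h0, map_smul, norm_smul, mul_pow]

lemma qf_le (hH : IsSelfAdjoint H) (ψ : E) (hf : Continuous f) (h1 : ∀ t, f t ≤ 1) :
    qf H ψ f ≤ ‖ψ‖ ^ 2 :=
  (qf_mono ψ hf continuous_const fun l _ => h1 l).trans_eq (by rw [qf_const hH, one_mul])

/-- the positive functional of a vector -/
noncomputable def Lam (H : E →L[ℂ] E) (ψ : E) : C_c(ℝ, ℝ) →ₚ[ℝ] ℝ :=
  PositiveLinearMap.mk₀
    { toFun := fun f => qf H ψ f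
      map_add' := fun f g => qf_add ψ f.continuous g.continuous
      map_smul' := fun c f => qf_mul ψ c f.continuous }
    fun f hf => qf_nonneg ψ f.continuous hf

lemma inner_cfc (hH : IsSelfAdjoint H) (ψ : E) (f : ℝ → ℝ) :
    ⟪ψ, cfc (fun z : ℂ => ((f z.re : ℝ) : ℂ)) H ψ⟫_ℂ = (qf H ψ f : ℂ) := by
  have hs : IsSelfAdjoint (cfc f H) := cfc_predicate _ _
  rw [← cfc_real_eq_complex f hH]
  exact Complex.ext rfl (hs.isSymmetric.im_inner_self_apply ψ)

end General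

variable {d : ℕ} {H : Ell2 d →L[ℂ] Ell2 d} {I : Set ℝ}

lemma acv_zero : ACv H I 0 := fun ε hε => ⟨1, one_pos, fun f _ _ _ _ => by simp [qf, hε.le]⟩

lemma acv_add {ψ φ : Ell2 d} (h1 : ACv H I ψ) (h2 : ACv H I φ) : ACv H I (ψ + φ) := by
  intro ε hε
  obtain ⟨δ1, p1, h1⟩ := h1 (ε / 4) (by positivity)
  obtain ⟨δ2, p2, h2⟩ := h2 (ε / 4) (by positivity)
  refine ⟨min δ1 δ2, lt_min p1 p2, fun f hf h01 hs hi => ?_⟩
  linarith [qf_add_le (H := H) ψ φ hf fun t => (h01 t).1, h1 f hf h01 hs (hi.trans (min_le_left _ _)),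
    h2 f hf h01 hs (hi.trans (min_le_right _ _))]

lemma acv_smul (c : ℂ) {ψ : Ell2 d} (h : ACv H I ψ) : ACv H I (c • ψ) := by
  intro ε hε
  obtain ⟨δ, p, h⟩ := h (ε / (‖c‖ ^ 2 + 1)) (by positivity)
  refine ⟨δ, p, fun f hf h01 hs hi => ?_⟩
  have h1 := (le_div_iff₀ (by positivity)).1 (h f hf h01 hs hi)
  rw [qf_smul c ψ hf fun t => (h01 t).1]
  linarith [qf_nonneg (H := H) ψ hf fun t => (h01 t).1]

lemma acv_all (hH : IsSelfAdjoint H) (h : ∀ x, ACv H I (dl x)) (ψ : Ell2 d) : ACv H I ψ := by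
  intro ε hε
  have hs := lp.hasSum_single (p := 2) (by simp) ψ
  obtain ⟨s, hs⟩ := (Metric.tendsto_nhds.1 hs (√(ε / 4)) (by positivity)).exists
  have h1 : ACv H I (∑ x ∈ s, lp.single 2 x (ψ x)) :=
    Finset.sum_induction _ (ACv H I) (fun _ _ => acv_add) acv_zero fun x _ => by
      have := acv_smul (ψ x) (h x)
      rwa [← lp.single_smul, smul_eq_mul, mul_one] at this
  obtain ⟨δ, p, h1⟩ := h1 (ε / 4) (by positivity)
  refine ⟨δ, p, fun f hf h01 hs' hi => ?_⟩
  rw [dist_comm, dist_eq_norm] at hs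
  generalize ∑ x ∈ s, lp.single 2 x (ψ x) = φ at h1 hs
  have h2 := qf_add_le (H := H) φ (ψ - φ) hf fun t => (h01 t).1
  have h3 := qf_le hH (ψ - φ) hf fun t => (h01 t).2
  have h4 := pow_le_pow_left₀ (norm_nonneg _) hs.le 2
  rw [Real.sq_sqrt (by positivity)] at h4
  rw [add_sub_cancel] at h2
  linarith [h1 f hf h01 hs' hi]

lemma ac (hI : IsOpen I) {ψ : Ell2 d} (h : ACv H I ψ) :
    (RealRMK.rieszMeasure (Lam H ψ)).restrict I ≪ volume := by
  refine Measure.AbsolutelyContinuous.mk fun A hA h0 => ?_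
  rw [Measure.restrict_apply hA]
  refine le_antisymm (ENNReal.le_of_forall_pos_le_add fun ε hε _ => ?_) zero_le
  obtain ⟨δ, p, h⟩ := h ε hε
  obtain ⟨U, hAU, hU, hUδ⟩ := A.exists_isOpen_lt_of_lt (μ := volume) (ENNReal.ofReal δ)
    (by rw [h0]; exact ENNReal.ofReal_pos.2 p)
  rw [zero_add]
  refine (measure_mono (Set.inter_subset_inter_left I hAU)).trans (not_lt.1 fun hh => ?_)
  obtain ⟨K, hKU, hK, hlt⟩ := (hU.inter hI).exists_lt_isCompact hh
  obtain ⟨f, f1, fc, fs, f01⟩ :=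
    exists_continuousMap_one_of_isCompact_subset_isOpen hK (hU.inter hI) hKU
  have hs : Function.support f ⊆ U ∩ I := (subset_tsupport _).trans fs
  have h1 : ∫ t, f t ≤ δ := by
    rw [← setIntegral_eq_integral_of_forall_compl_eq_zero (s := U)
      fun t ht => Function.notMem_support.1 fun h => ht (hs h).1]
    refine (Real.le_norm_self _).trans ((norm_setIntegral_le_of_norm_le_const (C := 1)
      (hUδ.trans ENNReal.ofReal_lt_top) fun t _ => ?_).trans ?_)
    · rw [Real.norm_of_nonneg (f01 t).1]; exact (f01 t).2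
    · rw [one_mul]; exact ENNReal.toReal_le_of_le_ofReal p.le hUδ.le
  have h2 := RealRMK.rieszMeasure_le_of_eq_one (Lam H ψ) (f := ⟨f, fc⟩) (fun t => (f01 t).1) hK
    fun t ht => f1 ht
  have h3 : ENNReal.ofReal (Lam H ψ ⟨f, fc⟩) ≤ ε :=
    ENNReal.ofReal_le_coe.2 (h f f.continuous f01 (fun t ht => (hs ht).2) h1)
  exact absurd (hlt.trans_le (h2.trans h3)) (lt_irrefl _)

end Dens

open Dens in
theorem dens : DensStmt := by
  intro d H hH α β h ψ
  have hac := ac isOpen_Ioo (acv_all hH h ψ)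
  set μ := RealRMK.rieszMeasure (Lam H ψ)
  have : IsFiniteMeasure (μ.restrict (Set.Ioo α β)) := isFiniteMeasure_restrict.2
    ((measure_mono Set.Ioo_subset_Icc_self).trans_lt isCompact_Icc.measure_lt_top).ne
  refine ⟨fun t => ((μ.restrict (Set.Ioo α β)).rnDeriv volume t).toReal,
    Measure.integrable_toReal_rnDeriv.integrableOn, fun f hf hs => ?_⟩
  have h0 : ∀ t, t ∉ Set.Ioo α β → f t = 0 := fun t ht => Function.notMem_support.1 fun h => ht (hs h)
  have hc : HasCompactSupport f :=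
    HasCompactSupport.intro isCompact_Icc fun t ht => h0 t fun h => ht (Set.Ioo_subset_Icc_self h)
  rw [inner_cfc hH, setIntegral_eq_integral_of_forall_compl_eq_zero
    fun t ht => by rw [h0 t ht, zero_mul]]
  simp only [mul_comm (f _)]
  rw [integral_toReal_rnDeriv_mul hac, setIntegral_eq_integral_of_forall_compl_eq_zero h0]
  exact congrArg _ (RealRMK.integral_rieszMeasure (Lam H ψ) ⟨⟨f, hf⟩, hc⟩).symm

end Crest.Agent.N334.AC.E
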