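import Crest.Agent.N334.AC.E.Defs

/-!
# Row 334, S0520, part E: from digit fields to the product measure
-/

set_option autoImplicit false

open MeasureTheory Finset
open scoped ENNReal NNReal

namespace Crest.Agent.N334.AC.E

open Crest.MathPhysics Crest.MathPhysics.Anderson

namespace Digit

/-- the affine map onto the `k`-th cell -/
noncomputable def phi (N k : ℕ) (r : unitInterval) : unitInterval :=
  Set.projIcc 0 1 zero_le_one ((k + r) / N)

lemma measurable_phi (N k : ℕ) : Measurable (phi N k) :=
  (continuous_projIcc.comp (by fun_prop)).measurable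

lemma coe_phi {N k : ℕ} (h : k < N) (r : unitInterval) : (phi N k r : ℝ) = (k + r) / N := by
  have h0 : (0 : ℝ) < N := Nat.cast_pos.2 (by omega)
  have h1 : (k : ℝ) + 1 ≤ N := by exact_mod_cast h
  have := r.2.1
  have := r.2.2
  rw [phi, Set.projIcc_of_mem _ ⟨by positivity, (div_le_one h0).2 (by linarith)⟩]

lemma le_sum {N : ℕ} (hN : 0 < N) (t : Set unitInterval) :
    N * volume t ≤ ∑ k ∈ range N, volume (phi N k ⁻¹' t) := by
  have h0 : (0 : ℝ) < N := Nat.cast_pos.2 hN
  have h1 : (· * (N : ℝ)⁻¹) ⁻¹' (Subtype.val '' t) ⊆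
      ⋃ k ∈ range N, (fun s => -(k : ℝ) + s) ⁻¹' (Subtype.val '' (phi N k ⁻¹' t)) := by
    rintro s ⟨u, hu, e⟩
    have hs : s = u * N := by
      simp only at e
      rw [e]; field_simp
    have a0 : 0 ≤ s := hs ▸ mul_nonneg u.2.1 h0.le
    have a1 : s ≤ N := hs ▸ mul_le_of_le_one_left h0.le u.2.2
    obtain ⟨k, hk, b0, b1⟩ : ∃ k < N, (k : ℝ) ≤ s ∧ s ≤ k + 1 := by
      rcases a1.eq_or_lt with h | h
      · obtain ⟨k, rfl⟩ : ∃ k, N = k + 1 := ⟨N - 1, by omega⟩
        push_cast at h
        exact ⟨k, by omega, by linarith, h.le⟩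
      · exact ⟨⌊s⌋₊, (Nat.floor_lt a0).2 h, Nat.floor_le a0, (Nat.lt_floor_add_one s).le⟩
    refine Set.mem_biUnion (mem_coe.2 (mem_range.2 hk))
      ⟨⟨-(k : ℝ) + s, by linarith, by linarith⟩, ?_, rfl⟩
    rw [Set.mem_preimage]
    convert hu
    refine Subtype.ext ?_
    rw [coe_phi hk, e]
    simp [div_eq_mul_inv]
  have h2 := (measure_mono (μ := volume) h1).trans (measure_biUnion_finset_le _ _)
  simp only [measure_preimage_add, ← unitInterval.volume_apply] at h2
  rwa [Real.volume_preimage_mul_right (by positivity), inv_inv, abs_of_pos h0,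
    ENNReal.ofReal_natCast, ← unitInterval.volume_apply] at h2

lemma eq_sum {N : ℕ} (hN : 0 < N) {t : Set unitInterval} (ht : MeasurableSet t) :
    ∑ k ∈ range N, volume (phi N k ⁻¹' t) = N * volume t := by
  have h : ∀ t, MeasurableSet t → (∑ k ∈ range N, Measure.map (phi N k) volume) t =
      ∑ k ∈ range N, volume (phi N k ⁻¹' t) := fun t ht => by
    rw [Measure.finsetSum_apply]
    exact sum_congr rfl fun k _ => Measure.map_apply (measurable_phi N k) ht
  have h1 : (N : ℝ≥0) • (volume : Measure unitInterval) =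
      ∑ k ∈ range N, Measure.map (phi N k) volume := by
    refine Measure.eq_of_le_of_measure_univ_eq (Measure.le_intro fun s hs _ => ?_) ?_
    · rw [h s hs]
      simpa using le_sum hN s
    · rw [h _ .univ]
      simp
  rw [← h t ht, ← h1]
  simp

variable {Λ : Type} [Fintype Λ] [DecidableEq Λ]

omit [Fintype Λ] [DecidableEq Λ] in
lemma measurable_Phi (N : ℕ) (k : Λ → ℕ) :
    Measurable fun (r : Λ → unitInterval) x => phi N (k x) (r x) :=
  measurable_pi_lambda _ fun x => (measurable_phi N (k x)).comp (measurable_pi_apply x)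

lemma site_eq {N : ℕ} (hN : 0 < N) : siteMeasure Λ = ((N : ℝ≥0∞) ^ Fintype.card Λ)⁻¹ •
    ∑ k ∈ Fintype.piFinset fun _ : Λ => range N,
      (siteMeasure Λ).map fun r x => phi N (k x) (r x) := by
  rw [siteMeasure, Measure.infinitePi_eq_pi]
  refine Measure.pi_eq fun s hs => ?_
  rw [Measure.smul_apply, Measure.finsetSum_apply, sum_congr rfl fun k _ =>
    (Measure.map_apply (measurable_Phi N k) (.univ_pi hs)).trans
      (Measure.pi_pi _ fun x => phi N (k x) ⁻¹' s x),
    ← prod_univ_sum (fun _ : Λ => range N) fun x k => volume (phi N k ⁻¹' s x),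
    prod_congr rfl fun x _ => eq_sum hN (hs x), prod_mul_distrib, prod_const, card_univ,
    smul_eq_mul, ← mul_assoc, ENNReal.inv_mul_cancel (pow_ne_zero _ (by simpa using hN.ne'))
      (by finiteness), one_mul]

end Digit

open Digit in
/-- from digit fields to the product measure -/
theorem digit : DigitStmt := by
  classical
  intro d M _ σ E w0 κ R N ε hN h S hS hb
  have hP : IsProbabilityMeasure (siteMeasure (Tor d M)) := by
    unfold siteMeasure; infer_instance
  rw [site_eq hN, Measure.smul_apply, Measure.finsetSum_apply,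
    sum_congr rfl fun k _ => (Measure.map_apply (measurable_Phi N k) hS).trans
      (lintegral_indicator_one (measurable_Phi N k hS)).symm,
    ← lintegral_finsetSum _ fun k _ => measurable_one.indicator (measurable_Phi N k hS),
    smul_eq_mul, ← lintegral_const_mul' _ _ (ENNReal.inv_ne_top.2
      (pow_ne_zero _ (by simpa using hN.ne')))]
  refine (lintegral_mono (g := fun _ => ENNReal.ofReal ε) fun r => ?_).trans (by simp)
  refine le_trans ?_ (ENNReal.ofReal_le_ofReal (h (fun x => r x) fun x => (r x).2))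
  rw [badFrac, ENNReal.ofReal_div_of_pos (prod_pos fun _ _ => by simpa using hN),
    ENNReal.ofReal_sum_of_nonneg fun _ _ => by split_ifs <;> norm_num, card_range, prod_const,
    card_univ, ENNReal.ofReal_pow (Nat.cast_nonneg _), ENNReal.ofReal_natCast, ENNReal.div_eq_inv_mul]
  refine mul_le_mul_right (sum_le_sum fun k hk => ?_) _
  by_cases hr : r ∈ (fun r x => phi N (k x) (r x)) ⁻¹' S
  · have h1 := hb _ hr
    simp only [fun x => coe_phi (mem_range.1 (Fintype.mem_piFinset.1 hk x)) (r x)] at h1
    rw [if_neg (show ¬ Good E w0 κ R fun x => val σ N (r x) (k x) from h1), Set.indicator_of_mem hr]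
    simp
  · rw [Set.indicator_of_notMem hr]
    exact zero_le

end Crest.Agent.N334.AC.E
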