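import Crest.Agent.N334.AC.E.Alg

/-!
# Row 334, S0520, leaf E/Pois: the mean value property gives uniform integrability
-/

set_option autoImplicit false

open MeasureTheory Filter Topology Complex Set Real

namespace Crest.Agent.N334.AC.E

open Crest.MathPhysics Crest.MathPhysics.Anderson

namespace Pois

lemma diff_inv {ι : Type} [Fintype ι] [DecidableEq ι] {B : ℂ → Matrix ι ι ℂ}
    (hB : ∀ a b, Differentiable ℂ fun z => B z a b) (a b : ι) {z : ℂ} (hz : IsUnit (B z).det) :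
    DifferentiableAt ℂ (fun z => (B z)⁻¹ a b) z := by
  have hd : ∀ {B : ℂ → Matrix ι ι ℂ}, (∀ a b, Differentiable ℂ fun z => B z a b) →
      Differentiable ℂ fun z => (B z).det := fun hB => by
    simp only [Matrix.det_apply']
    fun_prop
  have : (fun z => (B z)⁻¹ a b) = fun z => (B z).det⁻¹ * ((B z).updateRow b (Pi.single a 1)).det :=
    funext fun p => by
      rw [Matrix.inv_def, Ring.inverse_eq_inv', Matrix.smul_apply, Matrix.adjugate_apply]; rfl
  rw [this]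
  refine ((hd hB z).inv hz.ne_zero).mul (hd (fun i j => ?_) z)
  simp only [Matrix.updateRow_apply]
  split_ifs
  exacts [differentiable_const _, hB _ _]

lemma diff_gM {d M : ℕ} [NeZero M] (σ : ℝ) {w0 z : ℂ} (h0 : w0.im ≤ 0) (hz : 0 < z.im)
    (ω : Tor d M → unitInterval) : DifferentiableAt ℂ (fun z => gM σ w0 z ω) z := by
  refine diff_inv (fun i j => ?_) 0 0 (wz_adm σ h0 hz ω).inv
  simp only [Hm, Matrix.add_apply, Matrix.diagonal_apply, wz, wr]
  split_ifs <;> fun_prop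

/-- the disc onto the upper half plane -/
noncomputable def Mo (a s : ℝ) (ζ : ℂ) : ℂ := a + I * s * ((1 + ζ) / (1 - ζ))

lemma Mo_im (a s : ℝ) (ζ : ℂ) : (Mo a s ζ).im = s * ((1 - ‖ζ‖ ^ 2) / normSq (1 - ζ)) := by
  rw [Complex.sq_norm, normSq_apply ζ]
  simp only [Mo, add_im, ofReal_im, mul_im, mul_re, I_re, I_im, ofReal_re, div_re]
  simp
  left
  ring

lemma ne_one {ζ : ℂ} (h : ‖ζ‖ < 1) : 1 - ζ ≠ 0 := fun h' => by
  rw [← sub_eq_zero.1 h'] at h; simp at h

lemma Mo_pos (a : ℝ) {s : ℝ} (hs : 0 < s) {ζ : ℂ} (h : ‖ζ‖ < 1) : 0 < (Mo a s ζ).im := by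
  rw [Mo_im]
  exact mul_pos hs (div_pos (sub_pos.2 (pow_lt_one₀ (norm_nonneg _) h two_ne_zero))
    (normSq_pos.2 (ne_one h)))

lemma diff_Mo (a s : ℝ) {ζ : ℂ} (h : 1 - ζ ≠ 0) : DifferentiableAt ℂ (Mo a s) ζ := by
  unfold Mo; fun_prop (disch := exact h)

lemma Mo_zero (a s : ℝ) : Mo a s 0 = ⟨a, s⟩ := Complex.ext (by simp [Mo]) (by simp [Mo])

lemma mean {F : ℂ → ℂ} (hF : ∀ ζ, ‖ζ‖ < 1 → DifferentiableAt ℂ F ζ) {r : ℝ} (hr : |r| < 1) (K : ℝ) :
    ENNReal.ofReal (2 * π) * ENNReal.ofReal ((F 0).im - K) ≤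
      ∫⁻ θ in Ioc 0 (2 * π), ENNReal.ofReal ((F (circleMap 0 r θ)).im - K) := by
  have h1 : circleAverage F 0 r = F 0 := DiffContOnCl.circleAverage
    (DifferentiableOn.diffContOnCl fun ζ hζ => (hF ζ
      ((mem_closedBall_zero_iff.1 (Metric.closure_ball_subset_closedBall hζ)).trans_lt
        hr)).differentiableWithinAt)
  have hc : Continuous fun θ => F (circleMap 0 r θ) := continuous_iff_continuousAt.2 fun θ =>
    (hF _ (by simpa using hr)).continuousAt.comp (continuous_circleMap 0 r).continuousAt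
  have h2 : IntegrableOn (fun θ => (F (circleMap 0 r θ)).im - K) (Ioc 0 (2 * π)) :=
    ((continuous_im.comp hc).sub continuous_const).integrableOn_Ioc
  have h3 : 2 * π * ((F 0).im - K) = ∫ θ in Ioc 0 (2 * π), ((F (circleMap 0 r θ)).im - K) := by
    rw [← h1, circleAverage_def, intervalIntegral.integral_of_le two_pi_pos.le,
      integral_sub (f := fun θ => (F (circleMap 0 r θ)).im)
        (continuous_im.comp hc).integrableOn_Ioc (integrable_const _), smul_im,
      show (∫ θ in Ioc 0 (2 * π), F (circleMap 0 r θ)).im = _ from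
        (imCLM.integral_comp_comm hc.integrableOn_Ioc).symm]
    simp [max_eq_left two_pi_pos.le]
    field_simp
  rw [← ENNReal.ofReal_mul two_pi_pos.le, h3, integral_eq_lintegral_pos_part_sub_lintegral_neg_part h2]
  exact (ENNReal.ofReal_le_ofReal (sub_le_self _ ENNReal.toReal_nonneg)).trans
    ENNReal.ofReal_toReal_le

theorem avg {Ω : Type} [MeasurableSpace Ω] (P : Measure Ω) [SFinite P] {F : ℂ → Ω → ℂ}
    (hm : Measurable fun p : Ω × ℂ => F p.2 p.1)
    (hd : ∀ ω z, 0 < z.im → DifferentiableAt ℂ (fun z => F z ω) z) {K a s τ : ℝ} (hs : 0 < s)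
    {c e : ENNReal} (hc : c ≠ ⊤)
    (h1 : ∀ z : ℂ, 0 < z.im → ∫⁻ ω, ENNReal.ofReal ((F z ω).im - K) ∂P ≤ c)
    (h2 : ∀ θ ∈ Icc τ (2 * π - τ), 1 - circleMap 0 1 θ ≠ 0 ∧
      ∀ᶠ z in 𝓝[{z : ℂ | 0 < z.im}] (Mo a s (circleMap 0 1 θ)),
        ∫⁻ ω, ENNReal.ofReal ((F z ω).im - K) ∂P ≤ e) :
    ENNReal.ofReal (2 * π) * ∫⁻ ω, ENNReal.ofReal ((F ⟨a, s⟩ ω).im - K) ∂P ≤
      e * ENNReal.ofReal (2 * π) + c * (ENNReal.ofReal τ + ENNReal.ofReal τ) := by
  let r : ℕ → ℝ := fun n => 1 - 1 / ((n : ℝ) + 1)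
  have r1 : ∀ n, |r n| < 1 := fun n => by
    have h3 : 0 < 1 / ((n : ℝ) + 1) := by positivity
    have h4 : 1 / ((n : ℝ) + 1) ≤ 1 := (div_le_one (by positivity)).2 (by simp)
    exact abs_lt.2 ⟨by simp only [r]; linarith, by simp only [r]; linarith⟩
  have r2 : Tendsto r atTop (𝓝 1) := by
    simpa only [sub_zero] using tendsto_one_div_add_atTop_nhds_zero_nat.const_sub (1 : ℝ)
  have hp : ∀ n θ, 0 < (Mo a s (circleMap 0 (r n) θ)).im := fun n θ =>
    Mo_pos a hs (by simpa using r1 n)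
  have hG : ∀ n, Measurable fun p : Ω × ℝ =>
      ENNReal.ofReal ((F (Mo a s (circleMap 0 (r n) p.2)) p.1).im - K) := fun n =>
    ((measurable_im.comp (hm.comp (measurable_fst.prodMk (f := Prod.fst)
      (g := fun p : Ω × ℝ => Mo a s (circleMap 0 (r n) p.2))
      (by unfold Mo circleMap; fun_prop)))).sub_const K).ennreal_ofReal
  have h3 : ∀ n, ENNReal.ofReal (2 * π) * ∫⁻ ω, ENNReal.ofReal ((F ⟨a, s⟩ ω).im - K) ∂P ≤
      ∫⁻ θ in Ioc 0 (2 * π), ∫⁻ ω,
        ENNReal.ofReal ((F (Mo a s (circleMap 0 (r n) θ)) ω).im - K) ∂P := fun n => by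
    rw [← lintegral_const_mul' _ _ ENNReal.ofReal_ne_top,
      ← lintegral_lintegral_swap (hG n).aemeasurable, ← Mo_zero]
    exact lintegral_mono fun ω => mean (F := fun ζ => F (Mo a s ζ) ω) (fun ζ hζ =>
      (hd ω _ (Mo_pos a hs hζ)).comp ζ (diff_Mo a s (ne_one hζ))) (r1 n) K
  refine (le_limsup_of_frequently_le (Frequently.of_forall h3)).trans
    ((limsup_lintegral_le (fun _ => c) (fun n => (hG n).lintegral_prod_left')
      (fun n => Eventually.of_forall fun θ => h1 _ (hp n θ))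
      (by rw [setLIntegral_const, volume_Ioc]
          exact ENNReal.mul_ne_top hc ENNReal.ofReal_ne_top)).trans ?_)
  refine (lintegral_mono (g := fun θ => e + (Icc τ (2 * π - τ))ᶜ.indicator (fun _ => c) θ)
    fun θ => ?_).trans ?_
  · by_cases h : θ ∈ Icc τ (2 * π - τ)
    · have h4 : Tendsto (fun n => Mo a s (circleMap 0 (r n) θ)) atTop
          (𝓝[{z : ℂ | 0 < z.im}] (Mo a s (circleMap 0 1 θ))) :=
        tendsto_nhdsWithin_iff.2 ⟨(diff_Mo a s (h2 θ h).1).continuousAt.tendsto.comp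
          ((((continuous_ofReal.tendsto 1).comp r2).mul_const _).const_add _),
          Eventually.of_forall fun n => hp n θ⟩
      exact le_add_right (limsup_le_of_le (h := h4.eventually (h2 θ h).2))
    · beta_reduce
      rw [indicator_of_mem (mem_compl h)]
      exact le_add_left (limsup_le_of_le (h := Eventually.of_forall fun n => h1 _ (hp n θ)))
  · rw [lintegral_add_left measurable_const, lintegral_indicator_const measurableSet_Icc.compl,
      setLIntegral_const, volume_Ioc, sub_zero, Measure.restrict_apply measurableSet_Icc.compl]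
    refine add_le_add le_rfl (mul_le_mul_right ((measure_mono
      (t := Ioc 0 τ ∪ Ioc (2 * π - τ) (2 * π)) fun θ hθ => ?_).trans
        ((measure_union_le _ _).trans_eq (by simp))) c)
    rcases not_and_or.1 hθ.1 with h | h
    exacts [Or.inl ⟨hθ.2.1, (not_le.1 h).le⟩, Or.inr ⟨not_le.1 h, hθ.2.2⟩]
end Pois
open Pois

/-- **leaf E/Pois** -/
theorem pois : PoisStmt := by
  intro hE d σ hσ hT ε hε
  have c0 : 0 < π / (2 * σ) := by positivity
  obtain ⟨δ, hδ, hT⟩ := hT (ε / (2 * (π / (2 * σ)))) (by positivity)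
  refine ⟨δ⁻¹, fun a ha => ?_⟩
  obtain ⟨ρ, ρ0, hρ⟩ := Metric.isOpen_iff.1 (isOpen_Ioo.inter Metric.isOpen_ball) a
    (⟨ha, Metric.mem_ball_self (pow_pos hσ 2)⟩ : a ∈ Win d ∩ Metric.ball a (σ ^ 2))
  set τ := π * (ε / (2 * (π / (2 * σ)))) with hτ
  have τ0 : 0 < τ := by positivity
  obtain ⟨m, m0, hm⟩ := (isCompact_Icc (a := τ) (b := 2 * π - τ)).exists_forall_le'
    (f := fun θ => ‖1 - circleMap 0 1 θ‖) (by fun_prop) (a := 0) fun θ hθ => norm_pos_iff.2 fun h => by
      have h1 : Real.cos θ = 1 := by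
        simpa [circleMap, exp_ofReal_mul_I_re] using (congrArg re (sub_eq_zero.1 h)).symm
      linarith [(cos_eq_one_iff_of_lt_of_lt (by linarith [hθ.1, pi_pos])
        (by linarith [hθ.2])).1 h1, hθ.1]
  filter_upwards [Ioo_mem_nhdsGT (show 0 < ρ * m / 2 by positivity)] with s hs M₀
  obtain ⟨M, _, hM, w0, h1, h2, h3⟩ := hT a ha M₀
  refine ⟨M, inferInstance, hM, w0, h1, h2, ?_⟩
  have : IsProbabilityMeasure (siteMeasure (Tor d M)) := by unfold siteMeasure; infer_instance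
  have h4 := avg (siteMeasure (Tor d M)) (F := gM σ w0)
    (measurable_gM σ w0 measurable_snd measurable_fst) (fun ω z hz => diff_gM σ h2 hz ω)
    (K := δ⁻¹) (a := a) (τ := τ) hs.1 (c := ENNReal.ofReal (π / (2 * σ)))
    (e := ENNReal.ofReal (π / (2 * σ)) * ENNReal.ofReal (ε / (2 * (π / (2 * σ)))))
    ENNReal.ofReal_ne_top (fun z hz => (hE d M σ w0 z δ hσ h2 hz hδ).trans
      (mul_le_of_le_one_right' prob_le_one)) fun θ hθ => ?_
  · refine (ENNReal.mul_le_mul_iff_right (ENNReal.ofReal_pos.2 two_pi_pos).ne'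
      ENNReal.ofReal_ne_top).1 (h4.trans_eq ?_)
    rw [← ENNReal.ofReal_mul c0.le, ← ENNReal.ofReal_mul (by positivity),
      ← ENNReal.ofReal_add τ0.le τ0.le, ← ENNReal.ofReal_mul c0.le,
      ← ENNReal.ofReal_add (by positivity) (by positivity), ← ENNReal.ofReal_mul two_pi_pos.le, hτ]
    congr 1
    field_simp
    ring
  have h5 := m0.trans_le (hm θ hθ)
  refine ⟨norm_pos_iff.1 h5, ?_⟩
  have h6 : Mo a s (circleMap 0 1 θ) = (Mo a s (circleMap 0 1 θ)).re :=
    Complex.ext rfl (by simp [Mo_im])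
  have h7 : (Mo a s (circleMap 0 1 θ)).re ∈ Metric.ball a ρ := by
    rw [Metric.mem_ball, Real.dist_eq, ← Complex.ofReal_re a, ← sub_re, Complex.ofReal_re]
    refine (abs_re_le_norm _).trans_lt ?_
    rw [Mo, add_sub_cancel_left, norm_mul, norm_mul, norm_I, one_mul, norm_div, norm_real,
      Real.norm_of_nonneg hs.1.le, ← mul_div_assoc, div_lt_iff₀ h5]
    have h8 : ‖1 + circleMap 0 1 θ‖ ≤ 2 := (norm_add_le _ _).trans_eq (by simp; norm_num)
    nlinarith [mul_le_mul_of_nonneg_left h8 hs.1.le, mul_le_mul_of_nonneg_left (hm θ hθ) ρ0.le,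
      hs.2]
  rw [h6]
  filter_upwards [h3 _ (hρ h7).1 (le_of_lt (hρ h7).2), self_mem_nhdsWithin]
    with z hz hz'
  exact (hE d M σ w0 z δ hσ h2 hz' hδ).trans (mul_le_mul_right hz _)

end Crest.Agent.N334.AC.E
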