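import Crest.Agent.N334.AC.E.Alg
import Crest.Agent.N334.AC.Mat

/-!
# Row 334, S0520, part E (helper40): the infinite-volume limit at fixed `η`
-/

set_option autoImplicit false

open MeasureTheory Finset Matrix Complex Function Filter Topology

namespace Crest.Agent.N334.AC.E

open Crest.MathPhysics Crest.MathPhysics.Anderson Crest.Agent.N334.Soft

namespace Vol

/-- restriction of the field along an injection preserves the site measure -/
lemma mp {Λ Λ' : Type} {e : Λ' → Λ} (he : Injective e) :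
    MeasurePreserving (fun ω : Λ → unitInterval => ω ∘ e) (siteMeasure Λ) (siteMeasure Λ') := by
  have hm : Measurable fun ω : Λ → unitInterval => ω ∘ e :=
    measurable_pi_lambda _ fun j => measurable_pi_apply (e j)
  refine ⟨hm, Measure.eq_infinitePi _ fun s t ht => ?_⟩
  rw [Measure.map_apply hm (.pi s.countable_toSet fun i _ => ht i)]
  have h1 : (fun ω : Λ → unitInterval => ω ∘ e) ⁻¹' Set.pi s t =
      Set.pi (s.map ⟨e, he⟩) (extend e t fun _ => Set.univ) := by
    ext ω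
    simp [Set.mem_pi, he.extend_apply]
  rw [h1, siteMeasure, Measure.infinitePi_pi, prod_map]
  · simp [he.extend_apply]
  · intro i hi
    obtain ⟨j, -, rfl⟩ := mem_map.1 hi
    simpa [he.extend_apply] using ht j

/-- a-priori bound for a strictly dissipative system -/
lemma apriori {ι : Type} [Fintype ι] [DecidableEq ι] {A : Matrix ι ι ℂ} {w : ι → ℂ} (h : Adm A w)
    {η : ℝ} (hη : 0 < η) (hw : ∀ a, η ≤ gam w a) {v r : ι → ℂ} {o : ι}
    (hv : Hm A w *ᵥ v = Pi.single o 1 + r) : ‖Gm A w o o - v o‖ ≤ η⁻¹ * √(nsq r) := by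
  have h1 : v = Gm A w *ᵥ (Pi.single o 1 + r) := by
    rw [← hv, mulVec_mulVec, Gm, nonsing_inv_mul _ h.inv, one_mulVec]
  have h2 : Gm A w o o - v o = -(Gm A w o ⬝ᵥ r) := by
    rw [h1, mulVec_add, Pi.add_apply, mulVec_single_one]
    simp [mulVec]
  have h3 : η * nsq (Gm A w o) ≤ η⁻¹ := by
    refine le_trans ?_ ((ward h o).le.trans ((im_le_norm _).trans (norm_diag_le h hη (hw o))))
    rw [nsq, mul_sum]
    exact sum_le_sum fun a _ => by
      rw [G_symm h.symm w o a]; exact mul_le_mul_of_nonneg_right (hw a) (sq_nonneg _)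
  rw [← le_inv_mul_iff₀ hη, ← sq] at h3
  rw [h2, norm_neg]
  refine le_of_sq_le_sq ((cs' _ _).trans ?_) (by positivity)
  rw [mul_pow, Real.sq_sqrt (nsq_nonneg r)]
  exact mul_le_mul_of_nonneg_right h3 (nsq_nonneg r)

variable {d M ρ : ℕ} [NeZero M]

/-- the torus as a box around `x` -/
def emb (x : Fin d → ℤ) (y : Tor d M) : Fin d → ℤ := fun j => x j + (y j).valMinAbs

omit [NeZero M] in
lemma emb_inj (x : Fin d → ℤ) : Injective (emb (M := M) x) := fun _ _ h =>
  funext fun j => ZMod.injective_valMinAbs (add_left_cancel (congrFun h j))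

omit [NeZero M] in
lemma emb_zero (x : Fin d → ℤ) : emb x (0 : Tor d M) = x := by
  funext j; simp [emb]

lemma vma_add (hρ : 4 * (ρ + 1) ≤ M) (a : ZMod M) {s : ℤ} (hs : |s| ≤ 1)
    (h : |(a + s).valMinAbs| ≤ ρ ∨ |a.valMinAbs + s| ≤ ρ) :
    (a + s).valMinAbs = a.valMinAbs + s := by
  rw [abs_le] at hs
  rcases h with h | h <;> rw [abs_le] at h
  · rw [← sub_eq_iff_eq_add, eq_comm, ZMod.valMinAbs_spec]
    exact ⟨by simp, by omega, by omega⟩
  · rw [ZMod.valMinAbs_spec]
    exact ⟨by simp, by omega, by omega⟩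

lemma loc (hρ : 4 * (ρ + 1) ≤ M) {x : Fin d → ℤ} {f : (Fin d → ℤ) → ℂ}
    (hf : ∀ z, f z ≠ 0 → ∀ j, |z j - x j| ≤ ρ) (y : Tor d M) (j : Fin d) {s : ℤ} (hs : |s| ≤ 1) :
    f (emb x (y + Pi.single j (s : ZMod M))) = f (emb x y + Pi.single j s) := by
  by_cases h : |(y j + s).valMinAbs| ≤ ρ ∨ |(y j).valMinAbs + s| ≤ ρ
  · congr 1; funext i
    by_cases hi : i = j
    · subst hi; simp [emb, vma_add hρ _ hs h, add_assoc]
    · simp [emb, hi]
  · rw [not_or] at h
    have h1 : f (emb x (y + Pi.single j (s : ZMod M))) = 0 := by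
      by_contra h0; exact h.1 (by simpa [emb] using hf _ h0 j)
    have h2 : f (emb x y + Pi.single j s) = 0 := by
      by_contra h0; exact h.2 (by simpa [emb, add_assoc] using hf _ h0 j)
    rw [h1, h2]

lemma Hm_emb (hρ : 4 * (ρ + 1) ≤ M) {x : Fin d → ℤ} {f : (Fin d → ℤ) → ℂ}
    (hf : ∀ z, f z ≠ 0 → ∀ j, |z j - x j| ≤ ρ) (σ : ℝ) (w0 z : ℂ)
    (ω : (Fin d → ℤ) → unitInterval) (y : Tor d M) :
    (Hm (hop d M) (wz σ w0 z (ω ∘ emb x)) *ᵥ (f ∘ emb x)) y =
      applyOp d (-1) (fun x => σ * centredPotential ω x) f (emb x y) - z * f (emb x y) := by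
  have h1 : ∑ b, hop d M y b * (f ∘ emb x) b =
      -∑ j : Fin d, (f (emb x y + Pi.single j 1) + f (emb x y - Pi.single j 1)) := by
    simp only [hop, neg_mul, sum_neg_distrib, neg_inj, sum_mul, add_mul, ite_mul, one_mul,
      zero_mul]
    rw [sum_comm]
    refine sum_congr rfl fun j _ => ?_
    have e1 := loc hρ hf y j (s := 1) (by simp)
    have e2 := loc hρ hf y j (s := -1) (by simp)
    simp only [Int.cast_one, Int.cast_neg, Pi.single_neg, ← sub_eq_add_neg] at e1 e2
    simp [sum_add_distrib, e1, e2]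
  rw [Hm_mulVec, h1, applyOp]
  by_cases hy : y ∈ absb d M
  · have h2 : f (emb x y) = 0 := by
      by_contra h0
      obtain ⟨j, -, hj⟩ := (mem_filter.1 hy).2
      have := hf _ h0 j
      simp only [emb, add_sub_cancel_left, abs_le] at this
      omega
    simp [h2]
  · simp only [wz, wr, mem_compl, hy, not_false_eq_true, if_true, Function.comp_apply,
      centredPotential]
    push_cast; ring

/-- the box of radius `ρ` around `x` -/
noncomputable def bo (x : Fin d → ℤ) (ρ : ℕ) : Finset (Fin d → ℤ) :=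
  Fintype.piFinset fun j => Icc (x j - ρ) (x j + ρ)

lemma tendsto_out (x : Fin d → ℤ) (u : Ell2 d) :
    Tendsto (fun R => out (bo x R) u) atTop (𝓝 0) := by
  have h1 : Tendsto (bo x) atTop atTop := tendsto_atTop_finset_of_monotone
    (fun R R' h => Fintype.piFinset_subset _ _ fun j => Icc_subset_Icc (by omega) (by omega))
    fun z => ⟨univ.sup fun j => (z j - x j).natAbs, Fintype.mem_piFinset.2 fun j => by
      have := le_sup (f := fun j => (z j - x j).natAbs) (mem_univ j)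
      simp only [mem_Icc]; omega⟩
  have h2 := ((lp.hasSum_single (by norm_num) u).comp h1).const_sub u |>.norm
  rwa [sub_self, norm_zero] at h2

lemma close (hρ : 4 * (ρ + 1) ≤ M) (σ a : ℝ) {η : ℝ} (hη : 0 < η) {w0 : ℂ} (h0 : w0.im ≤ 0)
    (x : Fin d → ℤ) (ω : (Fin d → ℤ) → unitInterval) :
    ‖gM (M := M) σ w0 ⟨a, η⟩ (ω ∘ emb x) - End.g (-1) σ a η ω x x‖ ≤
      η⁻¹ * (‖End.Hm (-1) σ ω - (⟨a, η⟩ : ℂ) • 1‖ *
        out (bo x ρ) (End.G (End.Hm (-1) σ ω) ⟨a, η⟩ (End.dl x))) := by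
  have hu := End.HG (H := End.Hm (-1) σ ω) (z := ⟨a, η⟩) End.Hm_sa hη.ne' (End.dl x)
  rw [End.g]
  set u := End.G (End.Hm (-1) σ ω) ⟨a, η⟩ (End.dl x)
  set T := End.Hm (-1) σ ω - (⟨a, η⟩ : ℂ) • (1 : Ell2 d →L[ℂ] Ell2 d) with hT
  have hf : ∀ z, fs (bo x ρ) u z ≠ 0 → ∀ j, |z j - x j| ≤ ρ := fun z hz j => by
    have : z ∈ bo x ρ := by by_contra h; exact hz (by simp [fs_apply, h])
    have := mem_Icc.1 (Fintype.mem_piFinset.1 this j)
    rw [abs_le]; omega
  have h1 : Hm (hop d M) (wz σ w0 ⟨a, η⟩ (ω ∘ emb x)) *ᵥ (fs (bo x ρ) u ∘ emb x) =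
      Pi.single 0 1 + (T (fs (bo x ρ) u - u)) ∘ emb x := by
    funext y
    have e1 : T (fs (bo x ρ) u - u) = T (fs (bo x ρ) u) - End.dl x := by
      rw [map_sub, ← hu]; rfl
    have e2 : T (fs (bo x ρ) u) (emb x y) = applyOp d (-1) (fun x => σ * centredPotential ω x)
        (fs (bo x ρ) u) (emb x y) - ⟨a, η⟩ * fs (bo x ρ) u (emb x y) := by
      rw [← pot_apply, ← latticeOp_apply]; rfl
    have e3 : End.dl x (emb x y) = (Pi.single 0 1 : Tor d M → ℂ) y := by
      have e4 : emb x y = x ↔ y = 0 := by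
        rw [← (emb_inj x).eq_iff, emb_zero]
      simp only [lp.single_apply, Pi.single_apply, e4]
    rw [Hm_emb hρ hf, Pi.add_apply, Function.comp_apply, e1, lp.coeFn_sub, Pi.sub_apply, e2, e3]
    ring
  have h2 := apriori (wz_adm σ h0 (z := ⟨a, η⟩) hη _) hη (le_gam_wz σ h0 ⟨a, η⟩ _) h1
  have h3 : (fs (bo x ρ) u ∘ emb x) (0 : Tor d M) = u x := by
    rw [Function.comp_apply, emb_zero, fs_apply, if_pos]
    exact Fintype.mem_piFinset.2 fun j => mem_Icc.2 (by omega)
  rw [h3] at h2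
  refine h2.trans (mul_le_mul_of_nonneg_left ?_ (by positivity))
  refine le_trans ?_ ((T.le_opNorm (fs (bo x ρ) u - u)).trans_eq (by rw [out, norm_sub_rev u]))
  rw [Real.sqrt_le_left (norm_nonneg _)]
  have h4 := lp.sum_rpow_le_norm_rpow (p := 2) (by norm_num) (T (fs (bo x ρ) u - u))
    (univ.map ⟨emb (M := M) x, emb_inj x⟩)
  simpa [nsq] using h4

end Vol

open Vol in
/-- leaf E/Vol -/
theorem vol_lim : VolStmt := by
  intro d σ _ hF x ε hε
  obtain ⟨K, hK⟩ := hF ε hε
  refine ⟨K, fun a ha => ?_⟩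
  filter_upwards [hK a ha, self_mem_nhdsWithin] with η hη hη0
  have hη0 : 0 < η := hη0
  choose M hM hMn w0 _ hw hI using fun n => hη (4 * (n + 1))
  have hm : ∀ n, Measurable fun ω : Tor d (M n) → unitInterval =>
      ENNReal.ofReal ((gM σ (w0 n) ⟨a, η⟩ ω).im - K) := fun n =>
    ((measurable_im.comp (measurable_gM σ (w0 n) measurable_const measurable_id)).sub_const
      K).ennreal_ofReal
  refine le_trans (lintegral_mono fun ω => ?_) ((lintegral_liminf_le (u := atTop) fun n =>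
    (hm n).comp (mp (emb_inj x)).measurable).trans (liminf_le_of_frequently_le'
      (Frequently.of_forall fun n => ?_)))
  · have h1 : Tendsto (fun n => gM (M := M n) σ (w0 n) ⟨a, η⟩ (ω ∘ emb x)) atTop
        (𝓝 (End.g (-1) σ a η ω x x)) :=
      tendsto_iff_norm_sub_tendsto_zero.2 (squeeze_zero (fun _ => norm_nonneg _)
        (fun n => close (hMn n) σ a hη0 (hw n) x ω)
        (by simpa using ((tendsto_out x _).const_mul _).const_mul _))
    exact (ENNReal.tendsto_ofReal (((continuous_im.tendsto _).comp h1).sub_const K)).liminf_eq.ge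
  · exact ((mp (emb_inj x)).lintegral_comp (hm n)).trans_le (hI n)

end Crest.Agent.N334.AC.E
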