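import Crest.Agent.N334.AC.E.Chain
import Crest.Agent.N334.AC.E.Digit
import Crest.Agent.N334.AC.E.Pois
import Crest.Agent.N334.AC.E.Vol
import Crest.Agent.N334.AC.E.ACd
import Crest.Agent.N334.AC.E.Dens

/-!
# Row 334, S0520, part E (helper20): `EndStmt`
-/

set_option autoImplicit false

open MeasureTheory

namespace Crest.Agent.N334.AC.E

open Crest.MathPhysics.Anderson

theorem endStmt : EndStmt := by
  intro hO
  refine ⟨1 / 200, by norm_num, by norm_num, fun d hd => ?_⟩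
  obtain ⟨c₀, hc₀, h⟩ := hO d hd
  refine ⟨c₀, hc₀, fun σ hσ hσ' => ?_⟩
  obtain ⟨κ, hκ, h⟩ := h σ hσ hσ'
  have hU := vol_lim d σ hσ (pois eb d σ hσ (tight digit (by omega) hσ hκ h))
  obtain ⟨α, β, hI, hs⟩ : ∃ α β, energyWindow (1 / 200) d = Set.Ioo α β ∧ Set.Ioo α β ⊆ Win d := by
    unfold energyWindow Win
    split_ifs with h3
    · subst h3
      exact ⟨_, _, rfl, Set.Ioo_subset_Ioo (by norm_num) (by norm_num)⟩
    · exact ⟨_, _, rfl, Set.Ioo_subset_Ioo (by linarith) le_rfl⟩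
  rw [hI]
  filter_upwards [Soft.ae_mem_spectrum (d := d) (by omega) (-1) hσ,
    ae_all_iff.2 fun x => acd d σ hσ x (hU x)] with ω h1 h2
  refine ⟨fun E hE => h1 E ?_, dens d _ End.Hm_sa α β fun x ε hε => ?_⟩
  · have : (3 : ℝ) ≤ d := by exact_mod_cast hd
    have := hs hE
    rw [abs_neg, abs_one]
    exact abs_le.2 ⟨by linarith [this.1], by linarith [this.2]⟩
  · obtain ⟨δ, hδ, h3⟩ := h2 x ε hε
    exact ⟨δ, hδ, fun f hf h01 hsup => h3 f hf h01 (hsup.trans hs)⟩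

end Crest.Agent.N334.AC.E
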