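import Crest.Agent.N334.AC.E.Ball

/-!
# Row 334, S0520, part E (helper20): neighbour step and spectral averaging
-/

set_option autoImplicit false
set_option linter.unusedSectionVars false

open MeasureTheory Finset Matrix Complex Function
open scoped ENNReal

namespace Crest.Agent.N334.AC.E

open Crest.MathPhysics.Anderson

variable {ι : Type} [DecidableEq ι] [Fintype ι] {A : Matrix ι ι ℂ} {σ L θ : ℝ} {z : ℂ} {wb : ι → ℂ}
  {C S : Finset ι} {x y : ι}

lemma cnd_eq_flux (hx : x ∈ C) (hS : Disjoint S C) (hb : wb x = -I) (ω : ι → unitInterval) :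
    cnd A (wr σ z wb C ω) S x = flux A (wr σ z wb (C.erase x) ω) S x := by
  have h1 : update (wr σ z wb C ω) x (-I) = wr σ z wb (C.erase x) ω := by
    funext a
    by_cases h : a = x
    · subst h; simp [wr, hb]
    · simp [wr, h]
  rw [cnd, flux, ← h1]
  refine sum_congr rfl fun b hb' => ?_
  rw [gam_update, if_neg (by rintro rfl; exact disjoint_left.1 hS hb' hx)]

lemma Hyp.flux_eq (H : Hyp A σ L θ z wb) (hx : x ∉ C) (hS : x ∉ S) (ω : ι → unitInterval) :
    flux A (wr σ z wb C ω) S x = flux A (wr σ z wb (insert x C) ω) S x *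
      ‖1 + (sv σ z (ω x) - wb x) * Gm A (wr σ z wb C ω) x x‖ ^ 2 := by
  rw [flux, flux, sum_mul, wr_insert]
  refine sum_congr rfl fun b hb => ?_
  rw [gam_update, if_neg (by rintro rfl; exact hS hb), G_symm H.hs _ b x, G_symm H.hs _ b x,
    ← rank1_col (H.adm C ω) (H.adm' C ω x (ω x)) b, wr_notMem hx, norm_mul]
  ring

/-- neighbour step -/
lemma step (hs : A.IsSymm) (hh : A.IsHermitian) (hσ : 0 < σ) (hz : 0 < z.im)
    (hb : ∀ a, a ∉ C → 0 < gam wb a) {c : ℝ} (hc : ∀ a, ∑ b, ‖A a b‖ ≤ c) (hx : x ∈ C)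
    (hA : 1 ≤ ‖A y x‖) {U : Finset ι} (hU : U ⊆ C) (hxU : x ∉ U) (hyU : y ∈ U)
    (hN : ∀ u, u ≠ x → (A x u ≠ 0 ∨ A y u ≠ 0) → u ∈ U) {n : ℕ} (hn : #U ≤ n) (hS : Disjoint S C)
    (hL : σ + ‖z‖ + 4 * (c + 1) ^ 4 ≤ L) (h0 : 0 < θ) (h1 : θ ≤ 1 / 2) {β : ℝ} (hβ : 0 < β) :
    siteMeasure ι {ω | cnd A (wr σ z wb C ω) S y <
        ((θ / (1 + L)) ^ (n + 3) * (4 * (c + 1) ^ 2)⁻¹ * β) ^ 2 ∧ β ^ 2 ≤ cnd A (wr σ z wb C ω) S x} ≤
      (n + 2) * ENNReal.ofReal (4 * θ * L / σ) := by
  have hc0 : 0 ≤ c := (sum_nonneg fun _ _ => norm_nonneg _).trans (hc x)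
  have hΛ : 1 ≤ 4 * (c + 1) ^ 4 := by nlinarith [one_le_pow₀ (n := 4) (by linarith : 1 ≤ c + 1)]
  have hxy : x ≠ y := by rintro rfl; exact hxU hyU
  have hy := hU hyU
  let wb' : ι → ℂ := fun u =>
    if u ∈ C then (if u = x ∨ u = y then -I else -((4 * (c + 1) ^ 4 : ℝ) * I)) else wb u
  have e0 : ∀ ω, wr σ z wb C ω = wr σ z wb' C ω := fun ω => funext fun a => by
    simp only [wr, wb']; split_ifs <;> rfl
  have hg : ∀ u ∈ C, gam wb' u = if u = x ∨ u = y then 1 else 4 * (c + 1) ^ 4 := fun u hu => by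
    simp only [gam, wb', if_pos hu]; split_ifs <;> simp [-ofReal_mul, -ofReal_pow]
  have hp : ∀ u ∈ C, Port σ L z wb' u := fun u hu => ⟨by rw [hg u hu]; split_ifs <;> linarith,
    fun t => (norm_sub_le _ _).trans ((add_le_add (norm_sv_le hσ z t) (by
      simp only [wb', if_pos hu]
      split_ifs
      · simpa using hΛ
      · rw [norm_neg, norm_mul, norm_I, norm_real, mul_one, Real.norm_of_nonneg (by positivity)])).trans
      hL)⟩
  have H : Hyp A σ L θ z wb' := ⟨hs, hh, hσ, hz, fun a => by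
    by_cases ha : a ∈ C
    · linarith [(hp a ha).one]
    · simpa only [gam, wb', if_neg ha] using hb a ha, h0, h1, by linarith [norm_nonneg z]⟩
  have ex : wb' x = -I := by simp [wb', hx]
  have ey : wb' y = -I := by simp [wb', hy]
  have hq := H.q_pos
  have hq1 := H.q_le
  have hc1 : 0 < (4 * (c + 1) ^ 2)⁻¹ := by positivity
  have p1 := H.close_all (C := C.erase x \ U) y x hc1 (fun ω => base (H.adm _ ω) hc hxy hA
    (by rw [wr_notMem (by simp), ex]) (by rw [wr_notMem (by simp [hyU]), ey])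
    fun u hux huy hu => by
      have := hN u hux hu
      rw [gam, wr_notMem (by simp [this]), ← gam, hg u (hU this), if_neg (by tauto)]) U
    fun u hu => ⟨by simp [hu], hp u (hU hu)⟩
  rw [union_sdiff_of_subset fun u hu => mem_erase.2 ⟨by rintro rfl; exact hxU hu, hU hu⟩] at p1
  have p2 := H.transfer (C := C.erase x) (notMem_erase x C) (hp x hx)
    (fun h => disjoint_left.1 hS h hx) y (mul_pos (pow_pos hq n) hc1) hβ
  have p3 := H.den (notMem_erase y C) (hp y hy)
  rw [insert_erase hx] at p2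
  refine (measure_mono fun ω hω => ?_).trans ((measure_union_le _ _).trans
    ((add_le_add p1 ((measure_union_le _ _).trans (add_le_add p2 p3))).trans ?_))
  · obtain ⟨a1, a2⟩ := hω
    rw [e0, cnd_eq_flux hy hS ey, H.flux_eq (notMem_erase y C) (fun h => disjoint_left.1 hS h hy),
      insert_erase hy] at a1
    rw [e0, cnd_eq_flux hx hS ex] at a2
    by_contra hcon
    simp only [Set.mem_union, Set.mem_ofPred_eq, not_or, not_lt, not_and, not_le] at hcon
    obtain ⟨b1, b2, b3⟩ := hcon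
    have b4 : (θ / (1 + L)) ^ n * (4 * (c + 1) ^ 2)⁻¹ ≤ ‖Gm A (wr σ z wb' (C.erase x) ω) x y‖ := by
      rw [G_symm hs]
      exact (mul_le_mul_of_nonneg_right (pow_le_pow_of_le_one hq.le (by linarith) hn) hc1.le).trans b1
    refine (b2 ?_ a2).not_ge b4
    have b5 := pow_le_pow_left₀ hq.le (hq1.trans b3) 2
    have b6 : 0 ≤ flux A (wr σ z wb' C ω) S y :=
      sum_nonneg fun b _ => mul_nonneg (H.pos C ω b).le (sq_nonneg _)
    refine lt_of_mul_lt_mul_right (((mul_le_mul_of_nonneg_left b5 b6).trans_lt a1).trans_eq ?_)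
      (pow_pos hq 2).le
    ring
  · rw [add_mul, two_mul]
    gcongr

/-- spectral averaging -/
lemma avg_le (hs : A.IsSymm) (hh : A.IsHermitian) (hσ : 0 < σ) (hz : 0 < z.im)
    (hb : ∀ a, a ∉ C → 0 < gam wb a) (hx : x ∈ C) (hS : x ∉ S) {δ : ℝ} (hδ : 0 < δ) :
    ∫⁻ ω, ENNReal.ofReal ((Gm A (wr σ z wb C ω) x x).im - δ⁻¹) ∂siteMeasure ι ≤
      ENNReal.ofReal (Real.pi / (2 * σ)) * siteMeasure ι {ω | cnd A (wr σ z wb C ω) S x < δ} := by
  have hm : MeasurableSet {ω | cnd A (wr σ z wb C ω) S x < δ} :=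
    measurableSet_lt (measurable_cnd A meas_wr S x) measurable_const
  have hpos := wr_pos σ hz hb
  have hu : ∀ ω t, wr σ z wb C (update ω x t) = update (wr σ z wb C ω) x (sv σ z t) := fun ω t => by
    conv_lhs => rw [← insert_erase hx, wr_insert_update (notMem_erase x C)]
    conv_rhs => rw [← insert_erase hx, wr_insert, update_idem]
  have hc : ∀ ω t, cnd A (wr σ z wb C (update ω x t)) S x = cnd A (wr σ z wb C ω) S x := fun ω t => by
    rw [hu, cnd, cnd, update_idem]
    exact sum_congr rfl fun b hb => by rw [gam_update, if_neg (by rintro rfl; exact hS hb)]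
  rw [← lintegral_indicator_one hm, ← lintegral_const_mul' _ _ ENNReal.ofReal_ne_top]
  refine lint_update_le x ((measurable_im.comp (meas_G x x)).sub_const _).ennreal_ofReal fun ω => ?_
  by_cases h : cnd A (wr σ z wb C ω) S x < δ
  · rw [Set.indicator_of_mem (by exact h), Pi.one_apply, mul_one]
    have hA := adm_pos hs hh (hpos ω)
    refine le_trans (lintegral_mono fun t => ENNReal.ofReal_le_ofReal ?_)
      (End.lint_im_le hσ (c := Gm A (wr σ z wb C ω) x x) (by simpa using ward_sub hA ∅ x) (ω x))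
    have hA' := adm_pos hs hh (hpos (update ω x t))
    rw [hu] at hA' ⊢
    have e : sv σ z t - wr σ z wb C ω x = ((2 * σ * (t - ω x) : ℝ) : ℂ) := by
      simp only [sv, wr, if_pos hx]; push_cast; ring
    rw [← e, ← eq_div_of_mul_eq (rank1_ne hA hA') (rank1_col hA hA' x)]
    exact sub_le_self _ (by positivity)
  · refine le_of_eq_of_le (lintegral_eq_zero_of_ae_eq_zero (ae_of_all _ fun t => ?_)) zero_le
    have h1 := im_mul_cnd_le hs hh (hpos (update ω x t)) S x
    have h2 : 0 ≤ (Gm A (wr σ z wb C (update ω x t)) x x).im := by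
      simpa using ward_sub (adm_pos hs hh (hpos (update ω x t))) ∅ x
    rw [hc] at h1
    refine ENNReal.ofReal_eq_zero.2 (sub_nonpos.2 ?_)
    rw [← one_div, le_div_iff₀ hδ]
    exact (mul_le_mul_of_nonneg_left (not_lt.1 h) h2).trans h1

theorem eb : EbStmt := fun _ _ _ _ _ _ _ hσ h0 hz hδ =>
  avg_le hop_symm hop_herm hσ hz (fun _ _ => by simp only [gam, sub_im]; linarith)
    (mem_compl.2 zero_notMem_absb) zero_notMem_absb hδ

end Crest.Agent.N334.AC.E
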